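import Vale.Agent.P022.H472.Lit

/-!
# [LIM] extension of a ring homomorphism to `T₂ = lim ℤ₂ ⊗ T_{≤ k}`
-/

open scoped TensorProduct

noncomputable section

namespace Vale.Agent.P022.H587

variable {S : Type} {V : ℕ → Type} [∀ i, Ring (V i)] (g : S → ∀ i, V i)

/-! ### shortcuts -/

local instance iR (k : ℕ) : Ring (ℤ_[2] ⊗[ℤ] HA g k) := inferInstance
local instance iRp : Ring (∀ k, ℤ_[2] ⊗[ℤ] HA g k) := Pi.ring
local instance iT : Ring (T2 g) := (T2 g).toRing
local instance iTS : Semiring (T2 g) := (iT g).toSemiring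
local instance iTN : NonAssocSemiring (T2 g) := (iTS g).toNonAssocSemiring
local instance iTG : AddCommGroup (T2 g) := (iT g).toAddCommGroup
local instance iTA : AddGroup (T2 g) := (iTG g).toAddGroup
local instance iTSN : SubNegMonoid (T2 g) := (iTA g).toSubNegMonoid

/-! ### the small elements -/

theorem small_mono {k k' M M' : ℕ} (hk : k ≤ k') (hM : M ≤ M') {x : T2 g}
    (hx : Small g k' M' x) : Small g k M x := by
  obtain ⟨y, hy⟩ := hx
  have h1 := x.2 k k' hk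
  refine ⟨(2 ^ (M' - M) : ℤ) •
    Algebra.TensorProduct.map (AlgHom.id ℤ_[2] ℤ_[2]) (resH g hk) y, ?_⟩
  rw [← h1, hy, map_zsmul, smul_smul, ← pow_add, Nat.add_sub_cancel' hM]

theorem small_add {k M : ℕ} {x x' : T2 g} (hx : Small g k M x) (hx' : Small g k M x') :
    Small g k M (x + x') := by
  obtain ⟨y, hy⟩ := hx
  obtain ⟨y', hy'⟩ := hx'
  exact ⟨y + y', by
    rw [smul_add, ← hy, ← hy']; rfl⟩

theorem small_neg {k M : ℕ} {x : T2 g} (hx : Small g k M x) : Small g k M (-x) := by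
  obtain ⟨y, hy⟩ := hx
  exact ⟨-y, by rw [smul_neg, ← hy]; rfl⟩

theorem small_sub {k M : ℕ} {x x' : T2 g} (hx : Small g k M x) (hx' : Small g k M x') :
    Small g k M (x - x') := by
  rw [sub_eq_add_neg]; exact small_add g hx (small_neg g hx')

theorem small_mul_right {k M : ℕ} {x : T2 g} (hx : Small g k M x) (z : T2 g) :
    Small g k M (x * z) := by
  obtain ⟨y, hy⟩ := hx
  refine ⟨y * (z : ∀ k, ℤ_[2] ⊗[ℤ] HA g k) k, ?_⟩
  rw [← smul_mul_assoc, ← hy]; rfl

theorem small_mul_left {k M : ℕ} {x : T2 g} (hx : Small g k M x) (z : T2 g) :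
    Small g k M (z * x) := by
  obtain ⟨y, hy⟩ := hx
  refine ⟨(z : ∀ k, ℤ_[2] ⊗[ℤ] HA g k) k * y, ?_⟩
  rw [← mul_smul_comm, ← hy]; rfl

/-! ### the dense subring -/

/-- the projection of the free algebra -/
def pi (k : ℕ) : FreeAlgebra ℤ S →ₐ[ℤ] HA g k := FreeAlgebra.lift ℤ (gH g k)

theorem pi_apply (k : ℕ) (a : FreeAlgebra ℤ S) (i : Fin k) :
    (pi g k a : EW V k) i = FreeAlgebra.lift ℤ (fun s => g s i) a := by
  have h : ((Pi.evalAlgHom ℤ (fun i : Fin k => V i) i).comp ((HA g k).val.comp (pi g k)))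
      = FreeAlgebra.lift ℤ (fun s => g s i) := by
    apply FreeAlgebra.hom_ext
    funext s
    simp [pi, gH, gk]
  exact congrArg (fun f : FreeAlgebra ℤ S →ₐ[ℤ] V i => f a) h

theorem pi_surjective (k : ℕ) : Function.Surjective (pi g k) := by
  rintro ⟨y, hy⟩
  have hy' := hy
  rw [HA, Algebra.adjoin_range_eq_range_freeAlgebra_lift] at hy'
  obtain ⟨a, ha⟩ := hy'
  refine ⟨a, Subtype.ext ?_⟩
  have h : ((HA g k).val.comp (pi g k)) = FreeAlgebra.lift ℤ (gk g k) := by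
    apply FreeAlgebra.hom_ext
    funext s
    simp [pi, gH]
  change (pi g k a : EW V k) = y
  rw [← ha]
  exact congrArg (fun f : FreeAlgebra ℤ S →ₐ[ℤ] EW V k => f a) h

/-- the free algebra in `T₂` -/
def jj : FreeAlgebra ℤ S →ₐ[ℤ] T2 g := FreeAlgebra.lift ℤ (gT2 g)

theorem jj_apply (k : ℕ) (a : FreeAlgebra ℤ S) :
    (jj g a : ∀ k, ℤ_[2] ⊗[ℤ] HA g k) k = 1 ⊗ₜ pi g k a := by
  have h : (((Pi.evalAlgHom ℤ (fun k : ℕ => ℤ_[2] ⊗[ℤ] HA g k) k).comp
      ((T2 g).val.restrictScalars ℤ)).comp (jj g))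
      = (Algebra.TensorProduct.includeRight : HA g k →ₐ[ℤ] ℤ_[2] ⊗[ℤ] HA g k).comp (pi g k) := by
    apply FreeAlgebra.hom_ext
    funext s
    simp [pi, jj, gT2]
  exact congrArg (fun f : FreeAlgebra ℤ S →ₐ[ℤ] ℤ_[2] ⊗[ℤ] HA g k => f a) h

/-- an integer close to a `2`-adic integer -/
theorem exists_int (z : ℤ_[2]) (M : ℕ) : ∃ (n : ℤ) (w : ℤ_[2]), z = n + (2 : ℤ_[2]) ^ M * w := by
  have h := PadicInt.appr_spec M z
  rw [Ideal.mem_span_singleton] at h
  obtain ⟨w, hw⟩ := h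
  refine ⟨(z.appr M : ℤ), w, ?_⟩
  push_cast at hw ⊢
  rw [← hw]; ring

theorem exists_approx {k : ℕ} (M : ℕ) (t : ℤ_[2] ⊗[ℤ] HA g k) :
    ∃ (h : HA g k) (y : ℤ_[2] ⊗[ℤ] HA g k), t - 1 ⊗ₜ h = (2 ^ M : ℤ) • y := by
  induction t using TensorProduct.induction_on with
  | zero => exact ⟨0, 0, by simp⟩
  | tmul z u =>
    obtain ⟨n, w, hz⟩ := exists_int z M
    refine ⟨n • u, w ⊗ₜ u, ?_⟩
    have h1 : (1 : ℤ_[2]) ⊗ₜ[ℤ] (n • u) = ((n : ℤ_[2]) ⊗ₜ[ℤ] u) := by
      rw [← TensorProduct.smul_tmul, zsmul_eq_mul, mul_one]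
    rw [h1, ← TensorProduct.sub_tmul, hz, add_sub_cancel_left, TensorProduct.smul_tmul',
      zsmul_eq_mul]
    push_cast
    rfl
  | add t t' ht ht' =>
    obtain ⟨h, y, e⟩ := ht
    obtain ⟨h', y', e'⟩ := ht'
    refine ⟨h + h', y + y', ?_⟩
    rw [TensorProduct.tmul_add, smul_add, ← e, ← e']
    abel

theorem dense (k M : ℕ) (x : T2 g) : ∃ a, Small g k M (x - jj g a) := by
  obtain ⟨h, y, e⟩ := exists_approx g M ((x : ∀ k, ℤ_[2] ⊗[ℤ] HA g k) k)
  obtain ⟨a, rfl⟩ := pi_surjective g k h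
  refine ⟨a, y, ?_⟩
  rw [← e, ← jj_apply]; rfl

/-- `2 ^ M` divides `1 ⊗ u` only if it divides `u` -/
theorem div_of_tmul {H : Type} [AddCommGroup H] (M : ℕ) (u : H) (y : ℤ_[2] ⊗[ℤ] H)
    (h : (1 : ℤ_[2]) ⊗ₜ[ℤ] u = (2 ^ M : ℤ) • y) : ∃ v : H, u = (2 ^ M : ℤ) • v := by
  classical
  let R : AddSubgroup H := (zsmulAddGroupHom (2 ^ M : ℤ) : H →+ H).range
  let _ : Module (ZMod (2 ^ M)) (H ⧸ R) := QuotientAddGroup.zmodModule (by
    intro x
    refine ⟨x, ?_⟩
    change (2 ^ M : ℤ) • x = (2 ^ M : ℕ) • x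
    rw [← natCast_zsmul]
    push_cast
    rfl)
  let φ : ℤ_[2] →ₗ[ℤ] H →ₗ[ℤ] (H ⧸ R) := LinearMap.mk₂ ℤ
    (fun z u => PadicInt.toZModPow M z • (QuotientAddGroup.mk u : H ⧸ R))
    (by intro a b c; rw [map_add, add_smul])
    (by intro c a b; rw [map_zsmul]; exact smul_assoc _ _ _)
    (by intro a b c; rw [QuotientAddGroup.mk_add, smul_add])
    (by intro c a b; rw [QuotientAddGroup.mk_zsmul]; exact smul_comm _ _ _)
  have h1 := congrArg (TensorProduct.lift φ) h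
  rw [map_zsmul, TensorProduct.lift.tmul] at h1
  have h2 : φ 1 u = (QuotientAddGroup.mk u : H ⧸ R) := by
    simp [φ]
  rw [h2] at h1
  have h3 : ∀ q : H ⧸ R, (2 ^ M : ℤ) • q = 0 := by
    intro q
    induction q using QuotientAddGroup.induction_on with
    | H v =>
      rw [← QuotientAddGroup.mk_zsmul, QuotientAddGroup.eq_zero_iff]
      exact ⟨v, rfl⟩
  rw [h3, QuotientAddGroup.eq_zero_iff] at h1
  obtain ⟨v, hv⟩ := h1
  exact ⟨v, hv.symm⟩

section ext

variable (E : Type) [NontriviallyNormedField E] [NormedAlgebra ℚ_[2] E] [IsUltrametricDist E]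
variable {E} (L : FreeAlgebra ℤ S →ₐ[ℤ] E) (hL : ∀ x, ‖L x‖ ≤ 1)
  (hc : ∀ ε : ℝ, 0 < ε → ∃ k : ℕ, ∀ x : FreeAlgebra ℤ S,
    (∀ i < k, FreeAlgebra.lift ℤ (fun s => g s i) x = 0) → ‖L x‖ < ε)

omit [IsUltrametricDist E] in
theorem norm_two_pow (M : ℕ) : ‖((2 : E) ^ M)‖ = (2 : ℝ)⁻¹ ^ M := by
  have h : (2 : E) = algebraMap ℚ_[2] E 2 := (map_ofNat _ 2).symm
  rw [norm_pow, h, norm_algebraMap']
  congr 1
  have := Padic.norm_p (p := 2)
  simpa using this

include hL hc in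
theorem cont {ε : ℝ} (hε : 0 < ε) : ∃ k M : ℕ, ∀ a, Small g k M (jj g a) → ‖L a‖ < ε := by
  obtain ⟨k, hk⟩ := hc ε hε
  obtain ⟨M, hM⟩ := exists_pow_lt_of_lt_one hε (show ((2 : ℝ)⁻¹) < 1 by norm_num)
  refine ⟨k, M, fun a ha => ?_⟩
  obtain ⟨y, hy⟩ := ha
  rw [jj_apply] at hy
  obtain ⟨v, hv⟩ := div_of_tmul M _ y hy
  obtain ⟨b, rfl⟩ := pi_surjective g k v
  have h1 : ‖L (a - (2 ^ M : ℤ) • b)‖ < ε := by
    refine hk _ fun i hi => ?_
    rw [← pi_apply g k _ ⟨i, hi⟩, map_sub, map_zsmul, ← hv, sub_self]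
    rfl
  have h2 : L a = L (a - (2 ^ M : ℤ) • b) + (2 : E) ^ M * L b := by
    rw [map_sub, map_zsmul, zsmul_eq_mul]
    push_cast
    ring
  rw [h2]
  refine (IsUltrametricDist.norm_add_le_max _ _).trans_lt (max_lt h1 ?_)
  rw [norm_mul, norm_two_pow]
  exact (mul_le_of_le_one_right (by positivity) (hL b)).trans_lt hM

/-- the characterisation of the extension -/
def Val (x : T2 g) (e : E) : Prop :=
  ∀ ε : ℝ, 0 < ε → ∃ k M : ℕ, ∀ a, Small g k M (x - jj g a) → ‖L a - e‖ < ε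

omit [NormedAlgebra ℚ_[2] E] [IsUltrametricDist E] in
theorem Val.mono {x : T2 g} {e : E} (h : Val g L x e) {ε : ℝ} (hε : 0 < ε) :
    ∃ k M : ℕ, ∀ k' M', k ≤ k' → M ≤ M' → ∀ a, Small g k' M' (x - jj g a) → ‖L a - e‖ < ε := by
  obtain ⟨k, M, H⟩ := h ε hε
  exact ⟨k, M, fun k' M' hk hM a ha => H a (small_mono g hk hM ha)⟩

include hL hc in
theorem cont' {ε : ℝ} (hε : 0 < ε) : ∃ k M : ℕ, ∀ k' M', k ≤ k' → M ≤ M' →
    ∀ a, Small g k' M' (jj g a) → ‖L a‖ < ε := by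
  obtain ⟨k, M, H⟩ := cont g L hL hc hε
  exact ⟨k, M, fun k' M' hk hM a ha => H a (small_mono g hk hM ha)⟩

omit [NormedAlgebra ℚ_[2] E] [IsUltrametricDist E] in
theorem Val.unique {x : T2 g} {e e' : E} (h : Val g L x e) (h' : Val g L x e') : e = e' := by
  by_contra hne
  have hpos : 0 < ‖e - e'‖ / 2 := by
    have := norm_pos_iff.2 (sub_ne_zero.2 hne)
    linarith
  obtain ⟨k, M, H⟩ := h.mono g L hpos
  obtain ⟨k', M', H'⟩ := h'.mono g L hpos
  obtain ⟨a, ha⟩ := dense g (max k k') (max M M') x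
  have h1 := H _ _ (le_max_left _ _) (le_max_left _ _) a ha
  have h2 := H' _ _ (le_max_right _ _) (le_max_right _ _) a ha
  have h3 : e - e' = (L a - e') - (L a - e) := by ring
  have h4 : ‖e - e'‖ ≤ ‖L a - e'‖ + ‖L a - e‖ := by rw [h3]; exact norm_sub_le _ _
  linarith

include hL hc in
theorem exists_val [CompleteSpace E] (x : T2 g) : ∃ e, Val g L x e := by
  have hpos : ∀ n : ℕ, (0 : ℝ) < 1 / (n + 1) := fun n => by positivity
  choose k M H using fun n : ℕ => cont' g L hL hc (hpos n)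
  let K : ℕ → ℕ := fun n => ∑ i ∈ Finset.range (n + 1), k i
  let N : ℕ → ℕ := fun n => ∑ i ∈ Finset.range (n + 1), M i
  have hK : Monotone K := fun m n h =>
    Finset.sum_le_sum_of_subset (Finset.range_mono (Nat.succ_le_succ h))
  have hN : Monotone N := fun m n h =>
    Finset.sum_le_sum_of_subset (Finset.range_mono (Nat.succ_le_succ h))
  have hkK : ∀ n, k n ≤ K n := fun n =>
    Finset.single_le_sum (f := k) (fun _ _ => Nat.zero_le _) (Finset.self_mem_range_succ n)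
  have hMN : ∀ n, M n ≤ N n := fun n =>
    Finset.single_le_sum (f := M) (fun _ _ => Nat.zero_le _) (Finset.self_mem_range_succ n)
  choose a ha using fun n => dense g (K n) (N n) x
  have hdiff : ∀ n b, Small g (K n) (N n) (x - jj g b) → ‖L b - L (a n)‖ < 1 / (n + 1) := by
    intro n b hb
    rw [← map_sub]
    refine H n (K n) (N n) (hkK n) (hMN n) _ ?_
    have : jj g (b - a n) = (x - jj g (a n)) - (x - jj g b) := by rw [map_sub]; abel
    rw [this]
    exact small_sub g (ha n) hb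
  have hcau : CauchySeq fun n => L (a n) := by
    rw [Metric.cauchySeq_iff']
    intro ε hε
    obtain ⟨n, hn⟩ := exists_nat_one_div_lt hε
    refine ⟨n, fun m hm => ?_⟩
    rw [dist_eq_norm]
    exact (hdiff n (a m) (small_mono g (hK hm) (hN hm) (ha m))).trans hn
  obtain ⟨e, he⟩ := cauchySeq_tendsto_of_complete hcau
  refine ⟨e, fun ε hε => ?_⟩
  obtain ⟨n₀, hn₀⟩ := exists_nat_one_div_lt (show 0 < ε / 2 by positivity)
  obtain ⟨n₁, hn₁⟩ := Metric.tendsto_atTop.1 he (ε / 2) (by positivity)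
  let n := max n₀ n₁
  refine ⟨K n, N n, fun b hb => ?_⟩
  have h1 := hdiff n b hb
  have h2 := hn₁ n (le_max_right _ _)
  rw [dist_eq_norm] at h2
  have h3 : (1 : ℝ) / (n + 1) ≤ 1 / (n₀ + 1) := by
    apply one_div_le_one_div_of_le (by positivity)
    have : (n₀ : ℝ) ≤ n := by exact_mod_cast le_max_left n₀ n₁
    linarith
  have h4 : L b - e = (L b - L (a n)) + (L (a n) - e) := by ring
  rw [h4]
  refine (norm_add_le _ _).trans_lt ?_
  linarith

include hL in
omit [NormedAlgebra ℚ_[2] E] [IsUltrametricDist E] in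
theorem Val.norm_le {x : T2 g} {e : E} (h : Val g L x e) : ‖e‖ ≤ 1 := by
  refine le_of_forall_pos_le_add fun ε hε => ?_
  obtain ⟨k, M, H⟩ := h ε hε
  obtain ⟨a, ha⟩ := dense g k M x
  have h1 := H a ha
  have h2 : e = L a - (L a - e) := by ring
  have h3 : ‖e‖ ≤ ‖L a‖ + ‖L a - e‖ := by
    conv_lhs => rw [h2]
    exact norm_sub_le _ _
  linarith [hL a]

include hL hc in
theorem Val.add {x y : T2 g} {e f : E} (hx : Val g L x e) (hy : Val g L y f) :
    Val g L (x + y) (e + f) := by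
  intro ε hε
  have h3 : 0 < ε / 3 := by positivity
  obtain ⟨k₁, M₁, H₁⟩ := hx.mono g L h3
  obtain ⟨k₂, M₂, H₂⟩ := hy.mono g L h3
  obtain ⟨k₃, M₃, H₃⟩ := cont' g L hL hc h3
  refine ⟨k₁ + k₂ + k₃, M₁ + M₂ + M₃, fun c hcs => ?_⟩
  obtain ⟨a, ha⟩ := dense g (k₁ + k₂ + k₃) (M₁ + M₂ + M₃) x
  obtain ⟨b, hb⟩ := dense g (k₁ + k₂ + k₃) (M₁ + M₂ + M₃) y
  have e1 := H₁ _ _ (by omega) (by omega) a ha
  have e2 := H₂ _ _ (by omega) (by omega) b hb
  have e3 : ‖L (c - (a + b))‖ < ε / 3 := by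
    refine H₃ (k₁ + k₂ + k₃) (M₁ + M₂ + M₃) (by omega) (by omega) _ ?_
    have : jj g (c - (a + b)) = ((x - jj g a) + (y - jj g b)) - (x + y - jj g c) := by
      rw [map_sub, map_add]; abel
    rw [this]
    exact small_sub g (small_add g ha hb) hcs
  have e4 : L c - (e + f) = L (c - (a + b)) + ((L a - e) + (L b - f)) := by
    rw [map_sub, map_add]; ring
  rw [e4]
  calc _ ≤ ‖L (c - (a + b))‖ + (‖L a - e‖ + ‖L b - f‖) :=
        (norm_add_le _ _).trans (by gcongr; exact norm_add_le _ _)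
    _ < ε := by linarith

include hL hc in
theorem Val.mul {x y : T2 g} {e f : E} (hx : Val g L x e) (hy : Val g L y f) :
    Val g L (x * y) (e * f) := by
  intro ε hε
  have h3 : 0 < ε / 3 := by positivity
  obtain ⟨k₁, M₁, H₁⟩ := hx.mono g L h3
  obtain ⟨k₂, M₂, H₂⟩ := hy.mono g L h3
  obtain ⟨k₃, M₃, H₃⟩ := cont' g L hL hc h3
  refine ⟨k₁ + k₂ + k₃, M₁ + M₂ + M₃, fun c hcs => ?_⟩
  obtain ⟨a, ha⟩ := dense g (k₁ + k₂ + k₃) (M₁ + M₂ + M₃) x
  obtain ⟨b, hb⟩ := dense g (k₁ + k₂ + k₃) (M₁ + M₂ + M₃) y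
  have e1 := H₁ _ _ (by omega) (by omega) a ha
  have e2 := H₂ _ _ (by omega) (by omega) b hb
  have e3 : ‖L (c - a * b)‖ < ε / 3 := by
    refine H₃ (k₁ + k₂ + k₃) (M₁ + M₂ + M₃) (by omega) (by omega) _ ?_
    have : jj g (c - a * b) = ((x - jj g a) * y + jj g a * (y - jj g b)) - (x * y - jj g c) := by
      rw [map_sub, map_mul, sub_mul, mul_sub]; abel
    rw [this]
    exact small_sub g (small_add g (small_mul_right g ha y) (small_mul_left g hb _)) hcs
  have hf : ‖f‖ ≤ 1 := hy.norm_le g L hL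
  have e4 : L c - e * f = L (c - a * b) + (L a * (L b - f) + (L a - e) * f) := by
    rw [map_sub, map_mul]; ring
  rw [e4]
  have h5 : ‖L a * (L b - f)‖ < ε / 3 := by
    rw [norm_mul]; exact (mul_le_of_le_one_left (norm_nonneg _) (hL a)).trans_lt e2
  have h6 : ‖(L a - e) * f‖ < ε / 3 := by
    rw [norm_mul]; exact (mul_le_of_le_one_right (norm_nonneg _) hf).trans_lt e1
  calc _ ≤ ‖L (c - a * b)‖ + (‖L a * (L b - f)‖ + ‖(L a - e) * f‖) :=
        (norm_add_le _ _).trans (by gcongr; exact norm_add_le _ _)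
    _ < ε := by linarith

include hL hc in
theorem val_jj (a : FreeAlgebra ℤ S) : Val g L (jj g a) (L a) := by
  intro ε hε
  obtain ⟨k, M, H⟩ := cont g L hL hc hε
  refine ⟨k, M, fun b hb => ?_⟩
  rw [← norm_neg, neg_sub, ← map_sub]
  refine H _ ?_
  rw [map_sub]; exact hb

include hL hc in
theorem val_alg (z : ℤ_[2]) : Val g L (algebraMap ℤ_[2] (T2 g) z) (algebraMap ℚ_[2] E z) := by
  intro ε hε
  have h2 : 0 < ε / 2 := by positivity
  obtain ⟨k, M, H⟩ := cont' g L hL hc h2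
  obtain ⟨M', hM'⟩ := exists_pow_lt_of_lt_one h2 (show ((2 : ℝ)⁻¹) < 1 by norm_num)
  obtain ⟨n, w, hz⟩ := exists_int z (M + M')
  refine ⟨k, M + M', fun a ha => ?_⟩
  have e1 : ‖L (a - (n : FreeAlgebra ℤ S))‖ < ε / 2 := by
    refine H k (M + M') le_rfl (by omega) _ ?_
    have : jj g (a - (n : FreeAlgebra ℤ S)) = (algebraMap ℤ_[2] (T2 g) z - (n : T2 g))
        - (algebraMap ℤ_[2] (T2 g) z - jj g a) := by
      rw [map_sub, map_intCast]; abel
    rw [this]
    refine small_sub g ?_ ha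
    refine ⟨algebraMap ℤ_[2] _ w, ?_⟩
    have h5 : (algebraMap ℤ_[2] (T2 g) z - (n : T2 g)) =
        algebraMap ℤ_[2] (T2 g) ((2 : ℤ_[2]) ^ (M + M') * w) := by
      rw [hz, map_add, map_intCast, add_sub_cancel_left]
    rw [h5, zsmul_eq_mul]
    change algebraMap ℤ_[2] (ℤ_[2] ⊗[ℤ] HA g k) ((2 : ℤ_[2]) ^ (M + M') * w) = _
    rw [map_mul, map_pow, map_ofNat]
    push_cast
    rfl
  have e2 : ‖(n : E) - algebraMap ℚ_[2] E z‖ < ε / 2 := by
    have h5 : (n : E) - algebraMap ℚ_[2] E z =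
        -((2 : E) ^ (M + M') * algebraMap ℚ_[2] E (w : ℚ_[2])) := by
      have hz' : (z : ℚ_[2]) = (n : ℚ_[2]) + (2 : ℚ_[2]) ^ (M + M') * (w : ℚ_[2]) := by
        rw [hz, PadicInt.coe_add, PadicInt.coe_mul, PadicInt.coe_pow]
        simp
        exact Or.inl rfl
      rw [hz', map_add, map_intCast, map_mul, map_pow, map_ofNat]
      ring
    rw [h5, norm_neg, norm_mul, norm_two_pow, norm_algebraMap']
    refine lt_of_le_of_lt (mul_le_of_le_one_right (by positivity) w.norm_le_one) ?_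
    refine lt_of_le_of_lt ?_ hM'
    exact pow_le_pow_of_le_one (by norm_num) (by norm_num) (by omega)
  have e3 : L a - algebraMap ℚ_[2] E z =
      L (a - (n : FreeAlgebra ℤ S)) + ((n : E) - algebraMap ℚ_[2] E z) := by
    rw [map_sub, map_intCast]; ring
  rw [e3]
  refine (norm_add_le _ _).trans_lt ?_
  linarith

end ext

theorem LIM : LIMStmt := by
  intro S V _ g E _ _ _ _ L hL hc
  choose lam hlam using exists_val g L hL hc
  let c : ContHom g E :=
    { lam :=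
        { toFun := lam
          map_one' := (hlam 1).unique g L (by
            have := val_jj g L hL hc 1
            simpa using this)
          map_mul' := fun x y => (hlam _).unique g L ((hlam x).mul g L hL hc (hlam y))
          map_zero' := (hlam 0).unique g L (by
            have := val_jj g L hL hc 0
            simpa using this)
          map_add' := fun x y => (hlam _).unique g L ((hlam x).add g L hL hc (hlam y)) }
      lam_alg := fun z => (hlam _).unique g L (val_alg g L hL hc z)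
      lam_le := fun x => (hlam x).norm_le g L hL
      lam_cont := fun ε hε => by
        obtain ⟨k, M, H⟩ := cont g L hL hc (show 0 < ε / 2 by positivity)
        refine ⟨k, M, fun x hx => ?_⟩
        obtain ⟨k', M', H'⟩ := (hlam x).mono g L (show 0 < ε / 2 by positivity)
        obtain ⟨a, ha⟩ := dense g (k + k') (M + M') x
        have e1 := H' _ _ (by omega) (by omega) a ha
        have e2 : ‖L a‖ < ε / 2 := by
          refine H a ?_
          have : jj g a = x - (x - jj g a) := by abel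
          rw [this]
          exact small_sub g hx (small_mono g (by omega) (by omega) ha)
        have e3 : lam x = L a - (L a - lam x) := by ring
        change ‖lam x‖ < ε
        rw [e3]
        refine (norm_sub_le _ _).trans_lt ?_
        linarith }
  refine ⟨c, fun s => ?_⟩
  refine (hlam _).unique g L ?_
  have := val_jj g L hL hc (FreeAlgebra.ι ℤ s)
  simpa [jj] using this

end Vale.Agent.P022.H587
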