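import Mathlib.NumberTheory.ModularForms.EisensteinSeries.UniformConvergence
import Mathlib.NumberTheory.ModularForms.EisensteinSeries.IsBoundedAtImInfty
import Mathlib.NumberTheory.ModularForms.EisensteinSeries.MDifferentiable
import Mathlib.NumberTheory.ModularForms.Basic
import Mathlib.Analysis.Normed.Group.Tannery

/-!
# P022: forms with a given unitary character

For every subgroup `Γ` of `SL(2, ℤ)` and every unitary character `φ` of `Γ`, trivial on `Γ ∩ {±1}`,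
there are in all large even weights nonzero holomorphic forms with character `φ`, bounded at all
cusps.
-/

open UpperHalfPlane Filter Topology Complex EisensteinSeries
open scoped MatrixGroups ModularForm Manifold ComplexConjugate

namespace Vale.Agent.P022.H587.Poin

noncomputable section

/-- The kernel `a z + b - w̄ (c z + d)`. -/
def den (w : ℂ) (g : SL(2, ℤ)) (z : ℂ) : ℂ :=
  ((g 0 0 : ℤ) * z + (g 0 1 : ℤ)) - conj w * ((g 1 0 : ℤ) * z + (g 1 1 : ℤ))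

theorem det1 (g : SL(2, ℤ)) :
    ((g 0 0 : ℤ) : ℝ) * (g 1 1 : ℤ) - (g 0 1 : ℤ) * (g 1 0 : ℤ) = 1 := by
  have h := g.det_coe
  rw [Matrix.det_fin_two] at h
  exact_mod_cast h

theorem norm_sq (w z : ℂ) (g : SL(2, ℤ)) : ‖den w g z‖ ^ 2 =
    ‖((g 0 0 : ℤ) * z + (g 0 1 : ℤ)) - w * ((g 1 0 : ℤ) * z + (g 1 1 : ℤ))‖ ^ 2 +
      4 * z.im * w.im := by
  have h := det1 g
  rw [Complex.sq_norm, Complex.sq_norm, Complex.normSq_apply, Complex.normSq_apply]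
  simp only [den, Complex.sub_re, Complex.sub_im, Complex.add_re, Complex.add_im, Complex.mul_re,
    Complex.mul_im, Complex.intCast_re, Complex.intCast_im, Complex.conj_re, Complex.conj_im]
  linear_combination (4 * w.im * z.im) * h

/-- The constant. -/
def KK (w : ℂ) : ℝ := 1 + ‖w‖ / w.im + 1 / w.im

theorem KK_pos {w : ℂ} (hw : 0 < w.im) : 0 < KK w := by
  unfold KK
  positivity

theorem norm_Y_le {w z : ℂ} (hw : 0 < w.im) (hz : 0 < z.im) (g : SL(2, ℤ)) :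
    w.im * ‖(g 1 0 : ℤ) * z + (g 1 1 : ℤ)‖ ≤ ‖den w g z‖ := by
  set X : ℂ := (g 0 0 : ℤ) * z + (g 0 1 : ℤ) with hX
  set Y : ℂ := (g 1 0 : ℤ) * z + (g 1 1 : ℤ) with hY
  have h1 : ‖X - w * Y‖ ≤ ‖den w g z‖ := by
    have h2 := norm_sq w z g
    rw [← hX, ← hY] at h2
    have h3 : 0 < 4 * z.im * w.im := by positivity
    exact abs_le_of_sq_le_sq' (by linarith) (norm_nonneg _) |>.2
  have h2 : den w g z - (X - w * Y) = ((2 * w.im : ℝ) : ℂ) * Complex.I * Y := by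
    have : w - conj w = ((2 * w.im : ℝ) : ℂ) * Complex.I := Complex.sub_conj w
    rw [← this]
    simp only [den, ← hX, ← hY]
    ring
  have h3 : 2 * w.im * ‖Y‖ ≤ ‖den w g z‖ + ‖X - w * Y‖ := by
    have h4 := norm_sub_le (den w g z) (X - w * Y)
    rw [h2, norm_mul, norm_mul, Complex.norm_I, mul_one, Complex.norm_real, Real.norm_eq_abs,
      abs_of_pos (by positivity)] at h4
    exact h4
  linarith

theorem norm_Y_le' {w z : ℂ} (hw : 0 < w.im) (hz : 0 < z.im) (g : SL(2, ℤ)) :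
    ‖(g 1 0 : ℤ) * z + (g 1 1 : ℤ)‖ ≤ KK w * ‖den w g z‖ := by
  have h1 := norm_Y_le hw hz g
  have h2 : ‖(g 1 0 : ℤ) * z + (g 1 1 : ℤ)‖ ≤ (1 / w.im) * ‖den w g z‖ := by
    rw [div_mul_eq_mul_div, one_mul, le_div_iff₀ hw]
    linarith
  refine h2.trans ?_
  gcongr
  unfold KK
  have : 0 ≤ ‖w‖ / w.im := by positivity
  linarith

theorem norm_X_le' {w z : ℂ} (hw : 0 < w.im) (hz : 0 < z.im) (g : SL(2, ℤ)) :
    ‖(g 0 0 : ℤ) * z + (g 0 1 : ℤ)‖ ≤ KK w * ‖den w g z‖ := by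
  have h1 := norm_Y_le hw hz g
  set X : ℂ := (g 0 0 : ℤ) * z + (g 0 1 : ℤ) with hX
  set Y : ℂ := (g 1 0 : ℤ) * z + (g 1 1 : ℤ) with hY
  have h2 : ‖X‖ ≤ ‖den w g z‖ + ‖w‖ * ‖Y‖ := by
    have h3 : X = den w g z + conj w * Y := by
      simp only [den, ← hX, ← hY]
      ring
    calc ‖X‖ = ‖den w g z + conj w * Y‖ := by rw [← h3]
      _ ≤ ‖den w g z‖ + ‖conj w * Y‖ := norm_add_le _ _
      _ = _ := by rw [norm_mul, Complex.norm_conj]
  have h4 : ‖Y‖ ≤ ‖den w g z‖ / w.im := by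
    rw [le_div_iff₀ hw]
    linarith
  have h5 : ‖w‖ * ‖Y‖ ≤ ‖w‖ / w.im * ‖den w g z‖ := by
    calc ‖w‖ * ‖Y‖ ≤ ‖w‖ * (‖den w g z‖ / w.im) := by gcongr
      _ = _ := by ring
  have h6 : 0 ≤ 1 / w.im * ‖den w g z‖ := by positivity
  unfold KK
  nlinarith

theorem row_ne (g : SL(2, ℤ)) (i : Fin 2) : g.1 i ≠ 0 := by
  intro h
  have h1 := det1 g
  have h2 : ∀ j, g i j = 0 := fun j => congrFun h j
  fin_cases i
  · have a := h2 0
    have b := h2 1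
    simp only [Fin.zero_eta] at a b
    rw [a, b] at h1
    norm_num at h1
  · have a := h2 0
    have b := h2 1
    simp only [Fin.mk_one] at a b
    rw [a, b] at h1
    norm_num at h1

/-- The majorant. -/
def uu (g : SL(2, ℤ)) : ℝ := ((‖g.1 0‖ * ‖g.1 1‖) ^ 3)⁻¹

theorem one_le_norm {x : Fin 2 → ℤ} (hx : x ≠ 0) : 1 ≤ ‖x‖ := by
  rw [norm_eq_max_natAbs]
  have : x 0 ≠ 0 ∨ x 1 ≠ 0 := by
    by_contra h
    push Not at h
    exact hx (funext fun i => by fin_cases i <;> simp [h.1, h.2])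
  have h2 : 1 ≤ max (x 0).natAbs (x 1).natAbs := by
    rcases this with h | h
    · exact le_max_of_le_left (Int.natAbs_pos.2 h)
    · exact le_max_of_le_right (Int.natAbs_pos.2 h)
  exact_mod_cast h2

theorem summable_uu : Summable uu := by
  have h1 : Summable fun x : Fin 2 → ℤ => (‖x‖ ^ 3)⁻¹ := by
    have := summable_one_div_norm_rpow (k := 3) (by norm_num)
    refine this.congr fun x => ?_
    rw [Real.rpow_neg (norm_nonneg _)]
    congr 1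
    exact_mod_cast Real.rpow_natCast ‖x‖ 3
  have h2 : Summable fun p : (Fin 2 → ℤ) × (Fin 2 → ℤ) => (‖p.1‖ ^ 3)⁻¹ * (‖p.2‖ ^ 3)⁻¹ :=
    h1.mul_of_nonneg h1 (fun _ => by positivity) (fun _ => by positivity)
  have h3 : Function.Injective fun g : SL(2, ℤ) => (g.1 0, g.1 1) := by
    intro g g' h
    simp only [Prod.mk.injEq] at h
    refine Subtype.ext (funext fun i => ?_)
    fin_cases i
    · exact h.1
    · exact h.2
  refine (h2.comp_injective h3).congr fun g => ?_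
  simp only [Function.comp_apply, uu, mul_pow, mul_inv]

theorem uu_nonneg (g : SL(2, ℤ)) : 0 ≤ uu g := by
  unfold uu
  positivity

theorem prod_le {w : ℂ} (hw : 0 < w.im) (z : ℍ) (g : SL(2, ℤ)) :
    (r z) ^ 2 * (‖g.1 0‖ * ‖g.1 1‖) ≤ KK w ^ 2 * ‖den w g z‖ ^ 2 := by
  have h1 := (r_mul_max_le z (row_ne g 0)).trans (norm_X_le' hw z.im_pos g)
  have h2 := (r_mul_max_le z (row_ne g 1)).trans (norm_Y_le' hw z.im_pos g)
  have h3 := r_pos z
  calc (r z) ^ 2 * (‖g.1 0‖ * ‖g.1 1‖) = (r z * ‖g.1 0‖) * (r z * ‖g.1 1‖) := by ring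
    _ ≤ (KK w * ‖den w g z‖) * (KK w * ‖den w g z‖) :=
        mul_le_mul h1 h2 (by positivity) (by have := KK_pos hw; positivity)
    _ = _ := by ring

theorem den_ne {w : ℂ} (hw : 0 < w.im) {z : ℂ} (hz : 0 < z.im) (g : SL(2, ℤ)) :
    den w g z ≠ 0 := by
  intro h
  have h1 := norm_sq w z g
  rw [h, norm_zero] at h1
  have h2 : 0 < 4 * z.im * w.im := by positivity
  have h3 := sq_nonneg ‖((g 0 0 : ℤ) * z + (g 0 1 : ℤ)) - w * ((g 1 0 : ℤ) * z + (g 1 1 : ℤ))‖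
  norm_num at h1
  linarith

theorem term_le {w : ℂ} (hw : 0 < w.im) {r0 : ℝ} (hr0 : 0 < r0) (z : ℍ) (hr : r0 ≤ r z)
    {m : ℕ} (hm : 3 ≤ m) (g : SL(2, ℤ)) :
    ‖(den w g z ^ (2 * m))⁻¹‖ ≤ (KK w ^ 2 / r0 ^ 2) ^ m * uu g := by
  have h1 := prod_le hw z g
  have h3 := KK_pos hw
  have h4 : 0 < ‖g.1 0‖ * ‖g.1 1‖ :=
    mul_pos (norm_pos_iff.2 (row_ne g 0)) (norm_pos_iff.2 (row_ne g 1))
  have h5 : r0 ^ 2 * (‖g.1 0‖ * ‖g.1 1‖) ≤ KK w ^ 2 * ‖den w g z‖ ^ 2 :=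
    le_trans (by gcongr) h1
  have h6 : 0 < ‖den w g z‖ := norm_pos_iff.2 (den_ne hw z.im_pos g)
  have h7 : (‖den w g z‖ ^ 2)⁻¹ ≤ KK w ^ 2 / r0 ^ 2 * (‖g.1 0‖ * ‖g.1 1‖)⁻¹ := by
    rw [inv_le_comm₀ (by positivity) (by positivity), mul_inv, inv_inv, inv_div,
      div_mul_eq_mul_div, div_le_iff₀ (by positivity)]
    linarith
  rw [norm_inv, norm_pow, pow_mul, ← inv_pow]
  calc (‖den w g z‖ ^ 2)⁻¹ ^ m ≤ (KK w ^ 2 / r0 ^ 2 * (‖g.1 0‖ * ‖g.1 1‖)⁻¹) ^ m := by gcongr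
    _ = (KK w ^ 2 / r0 ^ 2) ^ m * ((‖g.1 0‖ * ‖g.1 1‖)⁻¹) ^ m := by rw [mul_pow]
    _ ≤ (KK w ^ 2 / r0 ^ 2) ^ m * ((‖g.1 0‖ * ‖g.1 1‖)⁻¹) ^ 3 := by
        refine mul_le_mul_of_nonneg_left (pow_le_pow_of_le_one (by positivity) ?_ hm)
          (by positivity)
        refine inv_le_one_of_one_le₀ ?_
        exact one_le_mul_of_one_le_of_one_le (one_le_norm (row_ne g 0)) (one_le_norm (row_ne g 1))
    _ = _ := by rw [uu, inv_pow]

/-- The series. -/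
def P (χ : SL(2, ℤ) → ℂ) (w : ℂ) (m : ℕ) (z : ℂ) : ℂ := ∑' g, χ g * (den w g z ^ (2 * m))⁻¹

theorem differentiableOn_P {χ : SL(2, ℤ) → ℂ} (hχ : ∀ g, ‖χ g‖ ≤ 1) {w : ℂ} (hw : 0 < w.im)
    {m : ℕ} (hm : 3 ≤ m) : DifferentiableOn ℂ (P χ w m) {z | 0 < z.im} := by
  intro z0 hz0
  have hz0' : 0 < z0.im := hz0
  let A : ℝ := |z0.re| + 1
  let B : ℝ := z0.im / 2
  have hB : 0 < B := by positivity
  let U : Set ℂ := {z | |z.re| < A ∧ B < z.im}
  have hU : IsOpen U :=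
    (isOpen_lt (Complex.continuous_re.abs) continuous_const).inter
      (isOpen_lt continuous_const Complex.continuous_im)
  have hz0U : z0 ∈ U := ⟨by simp [A], by simp only [B]; linarith⟩
  have h1 : DifferentiableOn ℂ (P χ w m) U := by
    refine differentiableOn_tsum_of_summable_norm
      (u := fun g => (KK w ^ 2 / (r ⟨⟨A, B⟩, hB⟩) ^ 2) ^ m * uu g)
      (summable_uu.mul_left _) ?_ hU ?_
    · intro g z hz
      have hz' : 0 < z.im := hB.trans hz.2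
      have hd : DifferentiableAt ℂ (fun z => den w g z) z := by
        unfold den
        fun_prop
      exact (((hd.pow (2 * m)).inv (pow_ne_zero _ (den_ne hw hz' g))).const_mul _
        |>.differentiableWithinAt)
    · intro g z hz
      have hz' : 0 < z.im := hB.trans hz.2
      rw [norm_mul]
      have h2 := term_le hw (r_pos ⟨⟨A, B⟩, hB⟩) ⟨z, hz'⟩
        (r_lower_bound_on_verticalStrip ⟨z, hz'⟩ hB ⟨hz.1.le, hz.2.le⟩) hm g
      calc _ ≤ 1 * _ := mul_le_mul (hχ g) h2 (norm_nonneg _) zero_le_one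
        _ = _ := one_mul _
  exact ((h1 z0 hz0U).differentiableAt (hU.mem_nhds hz0U)).differentiableWithinAt

theorem norm_P_le {χ : SL(2, ℤ) → ℂ} (hχ : ∀ g, ‖χ g‖ ≤ 1) {w : ℂ} (hw : 0 < w.im)
    {m : ℕ} (hm : 3 ≤ m) {r0 : ℝ} (hr0 : 0 < r0) (z : ℍ) (hr : r0 ≤ r z) :
    ‖P χ w m z‖ ≤ (KK w ^ 2 / r0 ^ 2) ^ m * ∑' g, uu g := by
  unfold P
  rw [← tsum_mul_left]
  refine tsum_of_norm_bounded (summable_uu.mul_left _).hasSum fun g => ?_
  rw [norm_mul]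
  have h2 := term_le hw hr0 z hr hm g
  calc _ ≤ 1 * _ := mul_le_mul (hχ g) h2 (norm_nonneg _) zero_le_one
    _ = _ := one_mul _

theorem den_smul (w : ℂ) (g g0 : SL(2, ℤ)) (z : ℍ) :
    den w g ((g0 • z : ℍ) : ℂ) = den w (g * g0) z / denom g0 z := by
  have h0 : denom g0 z ≠ 0 := denom_ne_zero _ _
  have h1 : denom g0 z = (g0 1 0 : ℤ) * (z : ℂ) + (g0 1 1 : ℤ) := by
    simp [denom]
  have h2 : ((g0 • z : ℍ) : ℂ) = ((g0 0 0 : ℤ) * (z : ℂ) + (g0 0 1 : ℤ)) / denom g0 z := by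
    rw [h1, coe_specialLinearGroup_apply]
    simp
  rw [h2, eq_div_iff h0]
  have h3 : (((g0 0 0 : ℤ) * (z : ℂ) + (g0 0 1 : ℤ)) / denom g0 z) * denom g0 z =
      (g0 0 0 : ℤ) * (z : ℂ) + (g0 0 1 : ℤ) := div_mul_cancel₀ _ h0
  simp only [den, Matrix.SpecialLinearGroup.coe_mul, Matrix.mul_apply, Fin.sum_univ_two]
  push_cast
  linear_combination ((g 0 0 : ℤ) - conj w * (g 1 0 : ℤ)) * h3 +
    ((g 0 1 : ℤ) - conj w * (g 1 1 : ℤ)) * h1

theorem P_slash (χ : SL(2, ℤ) → ℂ) (w : ℂ) (m : ℕ) (g0 : SL(2, ℤ)) :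
    (fun z : ℍ => P χ w m z) ∣[(2 * m : ℤ)] g0 = fun z : ℍ => P (fun g => χ (g * g0⁻¹)) w m z := by
  funext z
  rw [ModularForm.SL_slash_apply]
  have h0 : denom g0 z ≠ 0 := denom_ne_zero _ _
  have h1 : P χ w m ((g0 • z : ℍ) : ℂ) =
      denom g0 z ^ (2 * m) * P (fun g => χ (g * g0⁻¹)) w m z := by
    unfold P
    rw [← (Equiv.mulRight g0).tsum_eq (fun g => χ (g * g0⁻¹) * (den w g z ^ (2 * m))⁻¹),
      ← tsum_mul_left]
    refine tsum_congr fun g => ?_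
    simp only [Equiv.coe_mulRight, mul_inv_cancel_right]
    rw [den_smul, div_pow, inv_div]
    ring
  rw [h1]
  have h2 : denom g0 z ^ (-(2 * m : ℤ)) = (denom g0 z ^ (2 * m))⁻¹ := by
    rw [zpow_neg]
    norm_cast
  rw [h2]
  field_simp

theorem den_add (w : ℂ) (g : SL(2, ℤ)) (z : ℂ) (n : ℤ) :
    den w g (z + n) = den w (g * ModularGroup.T ^ n) z := by
  simp only [den, Matrix.SpecialLinearGroup.coe_mul, ModularGroup.coe_T_zpow, Matrix.mul_apply,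
    Fin.sum_univ_two]
  simp
  ring

theorem P_add (χ : SL(2, ℤ) → ℂ) (w : ℂ) (m : ℕ) (z : ℂ) (n : ℤ) :
    P χ w m (z + n) = P (fun g => χ (g * (ModularGroup.T ^ n)⁻¹)) w m z := by
  unfold P
  rw [← (Equiv.mulRight (ModularGroup.T ^ n)).tsum_eq
    (fun g => χ (g * (ModularGroup.T ^ n)⁻¹) * (den w g z ^ (2 * m))⁻¹)]
  refine tsum_congr fun g => ?_
  simp only [Equiv.coe_mulRight, mul_inv_cancel_right]
  rw [den_add]

theorem bounded_P {χ : SL(2, ℤ) → ℂ} (hχ : ∀ g, ‖χ g‖ ≤ 1) {w : ℂ} (hw : 0 < w.im)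
    {m : ℕ} (hm : 3 ≤ m) : IsBoundedAtImInfty fun z : ℍ => P χ w m z := by
  rw [isBoundedAtImInfty_iff]
  have h1 : (0 : ℝ) < 1 := one_pos
  refine ⟨(KK w ^ 2 / (r ⟨⟨1, 1⟩, h1⟩) ^ 2) ^ m * ∑' g, uu g, 1, fun z hz => ?_⟩
  have hz' : 0 < ((z : ℂ) - (⌊z.re⌋ : ℤ)).im := by
    simpa using z.im_pos
  have h2 : (z : ℂ) = ((z : ℂ) - (⌊z.re⌋ : ℤ)) + (⌊z.re⌋ : ℤ) := by ring
  rw [h2, P_add]
  refine norm_P_le (fun g => hχ _) hw hm (r_pos ⟨⟨1, 1⟩, h1⟩)
    ⟨(z : ℂ) - (⌊z.re⌋ : ℤ), hz'⟩ (r_lower_bound_on_verticalStrip _ h1 ⟨?_, ?_⟩)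
  · change |((z : ℂ) - (⌊z.re⌋ : ℤ)).re| ≤ 1
    have h3 : ((z : ℂ) - (⌊z.re⌋ : ℤ)).re = Int.fract z.re := by
      rw [← Int.self_sub_floor]
      simp
    rw [h3, abs_of_nonneg (Int.fract_nonneg _)]
    exact (Int.fract_lt_one _).le
  · change 1 ≤ ((z : ℂ) - (⌊z.re⌋ : ℤ)).im
    simpa using hz

/-- The base point. -/
def w0 : ℂ := 2 * Complex.I

theorem w0_im : w0.im = 2 := by simp [w0]

theorem den_w0 (g : SL(2, ℤ)) : g = 1 ∨ g = -1 ∨ 4 < ‖den w0 g w0‖ := by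
  have h := norm_sq w0 w0 g
  rw [w0_im] at h
  by_cases h0 : ((g 0 0 : ℤ) * w0 + (g 0 1 : ℤ)) - w0 * ((g 1 0 : ℤ) * w0 + (g 1 1 : ℤ)) = 0
  · have h1 := congrArg Complex.re h0
    have h2 := congrArg Complex.im h0
    simp [w0] at h1 h2
    have h1' : (g 0 1 : ℤ) = - 4 * g 1 0 := by
      have : ((g 0 1 : ℤ) : ℝ) = ((-4 * g 1 0 : ℤ) : ℝ) := by
        push_cast
        linarith
      exact_mod_cast this
    have h2' : (g 0 0 : ℤ) = g 1 1 := by
      have : ((g 0 0 : ℤ) : ℝ) = ((g 1 1 : ℤ) : ℝ) := by linarith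
      exact_mod_cast this
    have h3 := g.det_coe
    rw [Matrix.det_fin_two] at h3
    have h4 : (g 1 1 : ℤ) ^ 2 + 4 * (g 1 0 : ℤ) ^ 2 = 1 := by
      have h5 : (g 0 0 : ℤ) * g 1 1 - g 0 1 * g 1 0 = 1 := h3
      rw [h2', h1'] at h5
      linarith
    have h6 : (g 1 0 : ℤ) = 0 := by
      by_contra h7
      have : 1 ≤ (g 1 0 : ℤ) ^ 2 := by
        have := Int.one_le_abs h7
        nlinarith [sq_abs (g 1 0 : ℤ)]
      nlinarith [sq_nonneg (g 1 1 : ℤ)]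
    rw [h6] at h4 h1'
    have h7 : (g 1 1 : ℤ) = 1 ∨ (g 1 1 : ℤ) = -1 := by
      have : ((g 1 1 : ℤ) - 1) * ((g 1 1 : ℤ) + 1) = 0 := by linarith
      rcases mul_eq_zero.1 this with h | h
      · left
        linarith
      · right
        linarith
    rcases h7 with h8 | h8
    · left
      ext i j
      fin_cases i <;> fin_cases j <;> simp [h6, h1', h2', h8]
    · right
      left
      ext i j
      fin_cases i <;> fin_cases j <;> simp [h6, h1', h2', h8]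
  · right
    right
    have h1 := norm_pos_iff.2 h0
    have h2 : 4 ^ 2 < ‖den w0 g w0‖ ^ 2 := by
      rw [h]
      nlinarith
    exact lt_of_pow_lt_pow_left₀ 2 (norm_nonneg _) h2

theorem conj_w0 : conj w0 = -(2 * Complex.I) := by
  apply Complex.ext <;> simp [w0]

theorem den_one : den w0 1 w0 = 4 * Complex.I := by
  simp [den, conj_w0]
  simp [w0]
  ring

theorem den_neg_one : den w0 (-1) w0 = -(4 * Complex.I) := by
  simp [den, conj_w0]
  simp [w0]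
  ring

theorem one_ne_neg_one : (1 : SL(2, ℤ)) ≠ -1 := by
  intro h
  have := congrArg (fun g : SL(2, ℤ) => (g 0 0 : ℤ)) h
  simp at this

theorem tendsto_P {χ : SL(2, ℤ) → ℂ} (hχ : ∀ g, ‖χ g‖ ≤ 1) :
    Tendsto (fun m : ℕ => P χ w0 m w0 * (4 * Complex.I) ^ (2 * m)) atTop
      (𝓝 (χ 1 + χ (-1))) := by
  classical
  have hw : 0 < w0.im := by
    rw [w0_im]
    norm_num
  let ρ : SL(2, ℤ) → ℂ := fun g => (4 * Complex.I) ^ 2 / (den w0 g w0) ^ 2
  have hρ : ∀ g, ‖ρ g‖ ≤ 1 := by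
    intro g
    have h1 := norm_sq w0 w0 g
    rw [w0_im] at h1
    have h2 : (0 : ℝ) < ‖den w0 g w0‖ ^ 2 := by
      rw [h1]
      positivity
    simp only [ρ, norm_div, norm_pow, norm_mul, Complex.norm_I, mul_one]
    rw [div_le_one h2, h1]
    norm_num
  have e1 : ∀ m, P χ w0 m w0 * (4 * Complex.I) ^ (2 * m) = ∑' g, χ g * ρ g ^ m := by
    intro m
    unfold P
    rw [← tsum_mul_right]
    refine tsum_congr fun g => ?_
    simp only [ρ, div_pow, ← pow_mul]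
    ring
  have e2 : χ 1 + χ (-1) = ∑' g, if g = 1 ∨ g = -1 then χ g else 0 := by
    rw [tsum_eq_sum (s := {1, -1})]
    · rw [Finset.sum_pair one_ne_neg_one]
      simp
    · intro g hg
      simp only [Finset.mem_insert, Finset.mem_singleton] at hg
      rw [if_neg hg]
  simp only [e1]
  rw [e2]
  have hw0 : (w0 : ℂ) = ((⟨w0, hw⟩ : ℍ) : ℂ) := rfl
  refine tendsto_tsum_of_dominated_convergence
    (bound := fun g => (KK w0 ^ 2 / (r ⟨w0, hw⟩) ^ 2) ^ 3 * uu g * 4 ^ 6)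
    ((summable_uu.mul_left _).mul_right _) ?_ ?_
  · intro g
    rcases den_w0 g with h | h | h
    · rw [if_pos (Or.inl h), h]
      have : ρ 1 = 1 := by
        simp only [ρ, den_one]
        exact div_self (by simp)
      simp [this]
    · rw [if_pos (Or.inr h), h]
      have : ρ (-1) = 1 := by
        simp only [ρ, den_neg_one, neg_sq]
        exact div_self (by simp)
      simp [this]
    · have h1 : ‖ρ g‖ < 1 := by
        simp only [ρ, norm_div, norm_pow, norm_mul, Complex.norm_I, mul_one]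
        have h2 : (0 : ℝ) < ‖den w0 g w0‖ ^ 2 := by positivity
        rw [div_lt_one h2]
        have h3 : ‖(4 : ℂ)‖ = 4 := by norm_num
        rw [h3]
        exact pow_lt_pow_left₀ h (by norm_num) (by norm_num)
      have h2 : ¬ (g = 1 ∨ g = -1) := by
        rintro (h3 | h3)
        · rw [h3, den_one] at h
          norm_num at h
        · rw [h3, den_neg_one] at h
          norm_num at h
      rw [if_neg h2]
      have h3 := (tendsto_pow_atTop_nhds_zero_of_norm_lt_one h1).const_mul (χ g)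
      rwa [mul_zero] at h3
  · filter_upwards [eventually_ge_atTop 3] with m hm g
    rw [norm_mul, norm_pow]
    have h1 : ‖ρ g‖ ^ m ≤ ‖ρ g‖ ^ 3 := pow_le_pow_of_le_one (norm_nonneg _) (hρ g) hm
    have h2 := term_le hw (r_pos ⟨w0, hw⟩) ⟨w0, hw⟩ le_rfl (le_refl 3) g
    have h3 : ‖ρ g‖ ^ 3 = ‖(den w0 g w0 ^ (2 * 3))⁻¹‖ * 4 ^ 6 := by
      simp only [ρ, norm_div, norm_pow, norm_mul, Complex.norm_I, mul_one, norm_inv]
      have h3 : ‖(4 : ℂ)‖ = 4 := by norm_num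
      rw [h3]
      ring
    calc ‖χ g‖ * ‖ρ g‖ ^ m ≤ 1 * ‖ρ g‖ ^ 3 := mul_le_mul (hχ g) h1 (by positivity) zero_le_one
      _ = ‖(den w0 g w0 ^ (2 * 3))⁻¹‖ * 4 ^ 6 := by rw [one_mul, h3]
      _ ≤ _ := by gcongr

/-- Forms with a given character. -/
theorem exists_form (Γ : Subgroup SL(2, ℤ)) (φ : Γ →* ℂˣ) (h1 : ∀ γ, ‖(φ γ : ℂ)‖ = 1)
    (h2 : ∀ γ : Γ, (γ : SL(2, ℤ)) = -1 → φ γ = 1) :
    ∃ k₀ : ℕ, ∀ m ≥ k₀, ∃ h : ℍ → ℂ, h ≠ 0 ∧ MDifferentiable 𝓘(ℂ) 𝓘(ℂ) h ∧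
      (∀ γ : Γ, h ∣[(2 * m : ℤ)] (γ : SL(2, ℤ)) = (φ γ : ℂ) • h) ∧
      ∀ g : SL(2, ℤ), IsBoundedAtImInfty (h ∣[(2 * m : ℤ)] g) := by
  classical
  have hw : 0 < w0.im := by
    rw [w0_im]
    norm_num
  let χ : SL(2, ℤ) → ℂ := fun g => if hg : g ∈ Γ then ((φ ⟨g, hg⟩ : ℂˣ) : ℂ)⁻¹ else 0
  have hχ : ∀ g, ‖χ g‖ ≤ 1 := by
    intro g
    simp only [χ]
    split_ifs with hg
    · rw [norm_inv, h1, inv_one]
    · simp
  have hne : χ 1 + χ (-1) ≠ 0 := by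
    have e1 : χ 1 = 1 := by
      simp only [χ]
      rw [dif_pos Γ.one_mem]
      have : (⟨1, Γ.one_mem⟩ : Γ) = 1 := rfl
      rw [this, map_one]
      simp
    have e2 : χ (-1) = 1 ∨ χ (-1) = 0 := by
      simp only [χ]
      split_ifs with hg
      · left
        rw [h2 ⟨-1, hg⟩ rfl]
        simp
      · right
        rfl
    rcases e2 with h | h
    · rw [e1, h]
      norm_num
    · rw [e1, h]
      norm_num
  have h3 := (tendsto_P hχ).eventually_ne hne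
  obtain ⟨k₀, hk₀⟩ := eventually_atTop.1 h3
  refine ⟨max 3 k₀, fun m hm => ⟨fun z => P χ w0 m z, ?_, ?_, ?_, ?_⟩⟩
  · intro h
    have h4 : P χ w0 m w0 = 0 := congrFun h ⟨w0, hw⟩
    exact hk₀ m ((le_max_right _ _).trans hm) (by rw [h4, zero_mul])
  · rw [mdifferentiable_iff]
    refine (differentiableOn_P hχ hw ((le_max_left _ _).trans hm)).congr fun z hz => ?_
    simp only [Function.comp_apply]
    rw [ofComplex_apply_of_im_pos hz]
  · intro γ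
    rw [P_slash]
    funext z
    simp only [Pi.smul_apply, smul_eq_mul]
    unfold P
    rw [← tsum_mul_left]
    refine tsum_congr fun g => ?_
    rw [← mul_assoc]
    congr 1
    simp only [χ]
    by_cases hg : g ∈ Γ
    · have hg' : g * (γ : SL(2, ℤ))⁻¹ ∈ Γ := Γ.mul_mem hg (Γ.inv_mem γ.2)
      rw [dif_pos hg', dif_pos hg]
      have : (⟨g * (γ : SL(2, ℤ))⁻¹, hg'⟩ : Γ) = ⟨g, hg⟩ * γ⁻¹ := rfl
      rw [this, map_mul, map_inv]
      simp only [Units.val_mul, Units.val_inv_eq_inv_val, mul_inv, inv_inv]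
      ring
    · have hg' : g * (γ : SL(2, ℤ))⁻¹ ∉ Γ := fun h => hg (by
        have := Γ.mul_mem h γ.2
        rwa [inv_mul_cancel_right] at this)
      rw [dif_neg hg', dif_neg hg, mul_zero]
  · intro g
    rw [P_slash]
    exact bounded_P (fun g => hχ _) hw ((le_max_left _ _).trans hm)

end

end Vale.Agent.P022.H587.Poin
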