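import Mathlib

/-!
# [SW] Kaplansky's theorem: polynomials are dense in the continuous functions on a compact
subset of an ultrametric field (P022, block [SW] of the blueprint of helper472)
-/

namespace Vale.Agent.P022.H587

open Polynomial

variable {E : Type*} [NontriviallyNormedField E] [IsUltrametricDist E]

theorem norm_sub_le_max' (x y : E) : ‖x - y‖ ≤ max ‖x‖ ‖y‖ := by
  rw [sub_eq_add_neg, ← norm_neg y]
  exact IsUltrametricDist.norm_add_le_max _ _

/-- `‖1 - u ^ n‖ ≤ ‖1 - u‖` when `‖u‖ ≤ 1`. -/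
theorem norm_one_sub_pow_le {u : E} (hu : ‖u‖ ≤ 1) (n : ℕ) : ‖1 - u ^ n‖ ≤ ‖1 - u‖ := by
  induction n with
  | zero => simp
  | succ n ih =>
    have h : 1 - u ^ (n + 1) = (1 - u ^ n) + u ^ n * (1 - u) := by ring
    rw [h]
    refine (IsUltrametricDist.norm_add_le_max _ _).trans (max_le ih ?_)
    rw [norm_mul, norm_pow]
    exact mul_le_of_le_one_left (norm_nonneg _) (pow_le_one₀ (norm_nonneg _) hu)

/-- The basic factor `(1 - (y/c)^n)^N`. -/
noncomputable def fac (c : E) (n N : ℕ) : E[X] := (1 - (C c⁻¹ * X) ^ n) ^ N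

theorem fac_eval (c y : E) (n N : ℕ) : (fac c n N).eval y = (1 - (c⁻¹ * y) ^ n) ^ N := by
  simp [fac]

theorem norm_le_one_fac {c y : E} (hc : c ≠ 0) (hy : ‖y‖ ≤ ‖c‖) (n N : ℕ) :
    ‖(fac c n N).eval y‖ ≤ 1 := by
  have h1 : ‖c⁻¹ * y‖ ≤ 1 := by
    rw [norm_mul, norm_inv]
    rw [inv_mul_le_iff₀ (norm_pos_iff.2 hc), mul_one]; exact hy
  rw [fac_eval, norm_pow]
  refine pow_le_one₀ (norm_nonneg _) ?_
  refine (norm_sub_le_max' _ _).trans (max_le (by simp) ?_)
  rw [norm_pow]; exact pow_le_one₀ (norm_nonneg _) h1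

theorem norm_one_sub_fac {c y : E} (hc : c ≠ 0) (hy : ‖y‖ ≤ ‖c‖) (n N : ℕ) :
    ‖1 - (fac c n N).eval y‖ ≤ (‖c‖⁻¹ * ‖y‖) ^ n := by
  have h1 : ‖c⁻¹ * y‖ ≤ 1 := by
    rw [norm_mul, norm_inv]
    rw [inv_mul_le_iff₀ (norm_pos_iff.2 hc), mul_one]; exact hy
  rw [fac_eval]
  have h2 : ‖1 - (c⁻¹ * y) ^ n‖ ≤ 1 := by
    refine (norm_sub_le_max' _ _).trans (max_le (by simp) ?_)
    rw [norm_pow]; exact pow_le_one₀ (norm_nonneg _) h1
  refine (norm_one_sub_pow_le h2 N).trans ?_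
  rw [sub_sub_cancel, norm_pow, norm_mul, norm_inv]

theorem norm_fac_near {c y : E} (hc : c ≠ 0) (hy : ‖y‖ ≤ ‖c‖) (n N : ℕ) :
    ‖(fac c n N).eval y‖ ≤ (‖c‖⁻¹ * ‖c - y‖) ^ N := by
  have h1 : ‖c⁻¹ * y‖ ≤ 1 := by
    rw [norm_mul, norm_inv]
    rw [inv_mul_le_iff₀ (norm_pos_iff.2 hc), mul_one]; exact hy
  rw [fac_eval, norm_pow]
  refine pow_le_pow_left₀ (norm_nonneg _) ?_ N
  refine (norm_one_sub_pow_le h1 n).trans ?_
  have : 1 - c⁻¹ * y = c⁻¹ * (c - y) := by rw [mul_sub, inv_mul_cancel₀ hc]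
  rw [this, norm_mul, norm_inv]

/-- One sphere: a polynomial which is bounded by one on `‖y‖ ≤ ρ`, near one on `‖y‖ ≤ r` and
small on the points of norm `ρ` of a compact set. -/
theorem sphere {K : Set E} (hK : IsCompact K) {r ρ ε : ℝ} (hr : 0 < r) (hrρ : r < ρ)
    (hε : 0 < ε) :
    ∃ Q : E[X], (∀ y, ‖y‖ ≤ ρ → ‖Q.eval y‖ ≤ 1) ∧ (∀ y, ‖y‖ ≤ r → ‖1 - Q.eval y‖ < ε) ∧
      ∀ y ∈ K, ‖y‖ = ρ → ‖Q.eval y‖ < ε := by
  have hρ : 0 < ρ := hr.trans hrρ
  refine hK.induction_on (p := fun s => ∃ Q : E[X], (∀ y, ‖y‖ ≤ ρ → ‖Q.eval y‖ ≤ 1) ∧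
    (∀ y, ‖y‖ ≤ r → ‖1 - Q.eval y‖ < ε) ∧ ∀ y ∈ s, ‖y‖ = ρ → ‖Q.eval y‖ < ε) ?_ ?_ ?_ ?_
  · exact ⟨1, by simp, fun y _ => by simpa using hε, by simp⟩
  · rintro s t hst ⟨Q, h1, h2, h3⟩
    exact ⟨Q, h1, h2, fun y hy => h3 y (hst hy)⟩
  · rintro s t ⟨Q, h1, h2, h3⟩ ⟨R, g1, g2, g3⟩
    refine ⟨Q * R, ?_, ?_, ?_⟩
    · intro y hy
      rw [eval_mul, norm_mul]
      exact mul_le_one₀ (h1 y hy) (norm_nonneg _) (g1 y hy)
    · intro y hy
      have : 1 - (Q * R).eval y = (1 - Q.eval y) + Q.eval y * (1 - R.eval y) := by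
        rw [eval_mul]; ring
      rw [this]
      refine (IsUltrametricDist.norm_add_le_max _ _).trans_lt (max_lt (h2 y hy) ?_)
      rw [norm_mul]
      exact (mul_le_of_le_one_left (norm_nonneg _) (h1 y (hy.trans hrρ.le))).trans_lt (g2 y hy)
    · intro y hy hyρ
      rw [eval_mul, norm_mul]
      rcases hy with hy | hy
      · exact (mul_le_of_le_one_right (norm_nonneg _) (g1 y hyρ.le)).trans_lt (h3 y hy hyρ)
      · exact (mul_le_of_le_one_left (norm_nonneg _) (h1 y hyρ.le)).trans_lt (g3 y hy hyρ)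
  · intro c _
    by_cases hcρ : ‖c‖ = ρ
    · have hc : c ≠ 0 := by
        rintro rfl; rw [norm_zero] at hcρ; exact hρ.ne hcρ
      obtain ⟨n, hn⟩ := exists_pow_lt_of_lt_one hε (show ρ⁻¹ * r < 1 by
        rw [inv_mul_lt_iff₀ hρ, mul_one]; exact hrρ)
      obtain ⟨N, hN⟩ := exists_pow_lt_of_lt_one hε (show (1 / 2 : ℝ) < 1 by norm_num)
      refine ⟨{y | ‖c - y‖ < ρ / 2}, mem_nhdsWithin_of_mem_nhds ?_, fac c n N, ?_, ?_, ?_⟩
      · have : {y | ‖c - y‖ < ρ / 2} = Metric.ball c (ρ / 2) := by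
          ext y; simp [dist_eq_norm, norm_sub_rev]
        rw [this]; exact Metric.ball_mem_nhds c (by positivity)
      · intro y hy
        exact norm_le_one_fac hc (hcρ ▸ hy) n N
      · intro y hy
        refine (norm_one_sub_fac hc (by rw [hcρ]; exact hy.trans hrρ.le) n N).trans_lt ?_
        rw [hcρ]
        refine lt_of_le_of_lt (pow_le_pow_left₀ (by positivity) ?_ n) hn
        exact mul_le_mul_of_nonneg_left hy (by positivity)
      · intro y hy hyρ
        refine (norm_fac_near hc (by rw [hcρ, hyρ]) n N).trans_lt ?_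
        rw [hcρ]
        refine lt_of_le_of_lt (pow_le_pow_left₀ (by positivity) ?_ N) hN
        rw [inv_mul_le_iff₀ hρ]
        have : ‖c - y‖ < ρ / 2 := hy
        linarith
    · refine ⟨{y | ‖y‖ ≠ ρ}, mem_nhdsWithin_of_mem_nhds ?_, 1, by simp, fun y _ => by simpa using hε, ?_⟩
      · exact (isOpen_ne_fun continuous_norm continuous_const).mem_nhds hcρ
      · intro y hy hyρ; exact absurd hyρ hy

/-- the norms `> r` of a compact set form a finite set -/
theorem finite_norms {K : Set E} (hK : IsCompact K) {r : ℝ} (hr : 0 < r) :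
    (norm '' (K ∩ {y | r < ‖y‖})).Finite := by
  refine hK.induction_on (p := fun s => (norm '' (s ∩ {y : E | r < ‖y‖})).Finite) ?_ ?_ ?_ ?_
  · simp
  · intro s t hst ht
    exact ht.subset (Set.image_mono (Set.inter_subset_inter_left _ hst))
  · intro s t hs ht
    rw [Set.union_inter_distrib_right, Set.image_union]
    exact hs.union ht
  · intro c _
    by_cases hc : r < ‖c‖
    · refine ⟨{y | ‖y - c‖ < ‖c‖}, mem_nhdsWithin_of_mem_nhds ?_, ?_⟩
      · have : {y | ‖y - c‖ < ‖c‖} = Metric.ball c ‖c‖ := by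
          ext y; simp [dist_eq_norm]
        rw [this]; exact Metric.ball_mem_nhds c (hr.trans hc)
      · refine (Set.finite_singleton ‖c‖).subset ?_
        rintro _ ⟨y, ⟨hy, -⟩, rfl⟩
        have hy' : ‖y - c‖ < ‖c‖ := hy
        have h := IsUltrametricDist.norm_add_eq_max_of_norm_ne_norm (x := y - c) (y := c) hy'.ne
        rw [sub_add_cancel, max_eq_right hy'.le] at h
        exact h
    · refine ⟨{y | ‖y‖ ≤ r}, mem_nhdsWithin_of_mem_nhds ?_, ?_⟩
      · have hc' : ‖c‖ ≤ r := not_lt.1 hc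
        have : {y : E | ‖y‖ ≤ r} = Metric.closedBall 0 r := by
          ext y; simp
        rw [this]
        exact (IsUltrametricDist.isOpen_closedBall 0 hr.ne').mem_nhds (by simpa using hc')
      · refine Set.finite_empty.subset ?_
        rintro _ ⟨y, ⟨hy, hy2⟩, rfl⟩
        exact absurd (show r < ‖y‖ from hy2) (not_lt.2 hy)

/-- The characteristic function of a closed ball centred at `0`. -/
theorem ball_zero {K : Set E} (hK : IsCompact K) {r ε : ℝ} (hr : 0 < r) (hε : 0 < ε) :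
    ∃ P : E[X], (∀ y, ‖y‖ ≤ r → ‖1 - P.eval y‖ < ε) ∧ ∀ y ∈ K, r < ‖y‖ → ‖P.eval y‖ < ε := by
  classical
  set V := (finite_norms hK hr).toFinset with hV
  suffices H : ∀ W : Finset ℝ, (∀ ρ ∈ W, r < ρ) → ∃ P : E[X],
      (∀ y, ‖y‖ ≤ r → ‖1 - P.eval y‖ < ε) ∧ ∀ y ∈ K, ‖y‖ ∈ W → ‖P.eval y‖ < ε by
    obtain ⟨P, h1, h2⟩ := H V (by
      intro ρ hρ
      rw [hV, Set.Finite.mem_toFinset] at hρ
      obtain ⟨y, ⟨_, hy⟩, rfl⟩ := hρ
      exact hy)
    refine ⟨P, h1, fun y hy hyr => h2 y hy ?_⟩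
    rw [hV, Set.Finite.mem_toFinset]
    exact ⟨y, ⟨hy, hyr⟩, rfl⟩
  intro W
  induction W using Finset.induction_on_max with
  | empty => intro _; exact ⟨1, fun y _ => by simpa using hε, by simp⟩
  | insert ρ W hmax ih =>
    intro hW
    obtain ⟨P, h1, h2⟩ := ih (fun σ hσ => hW σ (Finset.mem_insert_of_mem hσ))
    obtain ⟨B, hB⟩ := hK.exists_bound_of_continuousOn (P.continuous.continuousOn)
    have hB' : 0 < max B 0 + 1 := by positivity
    have hε' : 0 < min ε (ε / (max B 0 + 1)) := lt_min hε (div_pos hε hB')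
    obtain ⟨Q, g1, g2, g3⟩ := sphere hK hr (hW ρ (Finset.mem_insert_self _ _)) hε'
    have hrρ := hW ρ (Finset.mem_insert_self _ _)
    refine ⟨Q * P, ?_, ?_⟩
    · intro y hy
      have : 1 - (Q * P).eval y = (1 - Q.eval y) + Q.eval y * (1 - P.eval y) := by
        rw [eval_mul]; ring
      rw [this]
      refine (IsUltrametricDist.norm_add_le_max _ _).trans_lt
        (max_lt ((g2 y hy).trans_le (min_le_left _ _)) ?_)
      rw [norm_mul]
      exact (mul_le_of_le_one_left (norm_nonneg _) (g1 y (hy.trans hrρ.le))).trans_lt (h1 y hy)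
    · intro y hy hyW
      rw [eval_mul, norm_mul]
      rcases Finset.mem_insert.1 hyW with h | h
      · have q1 : ‖Q.eval y‖ < ε / (max B 0 + 1) := (g3 y hy h).trans_le (min_le_right _ _)
        have q2 : ‖P.eval y‖ ≤ max B 0 + 1 := (hB y hy).trans ((le_max_left _ _).trans (by linarith))
        calc ‖Q.eval y‖ * ‖P.eval y‖ ≤ ‖Q.eval y‖ * (max B 0 + 1) :=
              mul_le_mul_of_nonneg_left q2 (norm_nonneg _)
          _ < ε / (max B 0 + 1) * (max B 0 + 1) := mul_lt_mul_of_pos_right q1 hB'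
          _ = ε := div_mul_cancel₀ _ hB'.ne'
      · exact (mul_le_of_le_one_left (norm_nonneg _) (g1 y (hmax _ h).le)).trans_lt (h2 y hy h)

/-- The characteristic function of a closed ball. -/
theorem ball_any {K : Set E} (hK : IsCompact K) (a : E) {r ε : ℝ} (hr : 0 < r) (hε : 0 < ε) :
    ∃ P : E[X], (∀ y, ‖y - a‖ ≤ r → ‖1 - P.eval y‖ < ε) ∧
      ∀ y ∈ K, r < ‖y - a‖ → ‖P.eval y‖ < ε := by
  obtain ⟨P, h1, h2⟩ := ball_zero (hK.image (continuous_id.sub continuous_const : Continuous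
    fun y : E => y - a)) hr hε
  refine ⟨P.comp (X - C a), ?_, ?_⟩
  · intro y hy
    simpa [eval_comp] using h1 (y - a) hy
  · intro y hy hya
    simpa [eval_comp] using h2 (y - a) ⟨y, hy, rfl⟩ hya

/-- **[SW]** Kaplansky's theorem.  `ι : R → E` has values in a compact set and `ψ : R → E` is
uniformly continuous for the distance `‖ι a - ι b‖`; then `ψ` is a uniform limit of polynomials
in `ι`. -/
theorem sw {R : Type*} {K : Set E} (hK : IsCompact K) (ι : R → E) (hι : ∀ a, ι a ∈ K)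
    (ψ : R → E) (hψ : ∀ ε > 0, ∃ δ > 0, ∀ a b, ‖ι a - ι b‖ ≤ δ → ‖ψ a - ψ b‖ < ε)
    {ε : ℝ} (hε : 0 < ε) :
    ∃ P : E[X], ∀ a, ‖ψ a - P.eval (ι a)‖ < ε := by
  classical
  obtain ⟨δ, hδ, hd⟩ := hψ ε hε
  -- a finite cover with centres in the image
  have hcl : TotallyBounded (Set.range ι) :=
    hK.totallyBounded.subset (by rintro _ ⟨a, rfl⟩; exact hι a)
  obtain ⟨T, hTs, hTf, hT⟩ := totallyBounded_iff_subset.1 hcl _ (Metric.dist_mem_uniformity hδ)
  -- every finite union of balls with centres in the image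
  have key : ∀ t : Finset E, (t : Set E) ⊆ Set.range ι → ∃ P : E[X], ∀ a,
      ((∃ x ∈ t, ‖ι a - x‖ ≤ δ) → ‖ψ a - P.eval (ι a)‖ < ε) ∧
      ((¬ ∃ x ∈ t, ‖ι a - x‖ ≤ δ) → ‖P.eval (ι a)‖ < ε) := by
    intro t
    induction t using Finset.induction_on with
    | empty => intro _; exact ⟨0, fun a => ⟨by simp, fun _ => by simpa using hε⟩⟩
    | insert x t hx ih =>
      intro hxt
      have hxr : x ∈ Set.range ι := hxt (by simp)
      obtain ⟨P, hP⟩ := ih (fun z hz => hxt (by simp [Finset.mem_coe.1 hz]))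
      by_cases hmeet : ∃ z ∈ t, ‖x - z‖ ≤ δ
      · -- the ball is already there
        obtain ⟨z, hz, hxz⟩ := hmeet
        have heq : ∀ a, (∃ y ∈ insert x t, ‖ι a - y‖ ≤ δ) ↔ ∃ y ∈ t, ‖ι a - y‖ ≤ δ := by
          intro a
          constructor
          · rintro ⟨y, hy, h⟩
            rcases Finset.mem_insert.1 hy with rfl | hy
            · refine ⟨z, hz, ?_⟩
              have : ι a - z = (ι a - y) + (y - z) := by ring
              rw [this]
              exact (IsUltrametricDist.norm_add_le_max _ _).trans (max_le h hxz)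
            · exact ⟨y, hy, h⟩
          · rintro ⟨y, hy, h⟩
            exact ⟨y, Finset.mem_insert_of_mem hy, h⟩
        refine ⟨P, fun a => ?_⟩
        rw [heq a]
        exact hP a
      · obtain ⟨b, rfl⟩ := hxr
        have hε' : 0 < ε / (‖ψ b‖ + 1) := div_pos hε (by positivity)
        obtain ⟨Q, hQ1, hQ2⟩ := ball_any hK (ι b) hδ hε'
        have hlt : ‖ψ b‖ * (ε / (‖ψ b‖ + 1)) < ε := by
          rw [mul_div_assoc', div_lt_iff₀ (by positivity)]
          nlinarith [norm_nonneg (ψ b)]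
        refine ⟨P + C (ψ b) * Q, fun a => ?_⟩
        rw [eval_add, eval_mul, eval_C]
        by_cases hab : ‖ι a - ι b‖ ≤ δ
        · -- near the new centre
          have hnt : ¬ ∃ y ∈ t, ‖ι a - y‖ ≤ δ := by
            rintro ⟨y, hy, h⟩
            apply hmeet
            refine ⟨y, hy, ?_⟩
            have : ι b - y = (ι a - y) - (ι a - ι b) := by ring
            rw [this]
            exact (norm_sub_le_max' _ _).trans (max_le h hab)
          refine ⟨fun _ => ?_, fun h => absurd ⟨ι b, by simp, hab⟩ h⟩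
          have e1 : ψ a - (P.eval (ι a) + ψ b * Q.eval (ι a))
              = ((ψ a - ψ b) - P.eval (ι a)) + ψ b * (1 - Q.eval (ι a)) := by ring
          rw [e1]
          refine (IsUltrametricDist.norm_add_le_max _ _).trans_lt (max_lt ?_ ?_)
          · exact (norm_sub_le_max' _ _).trans_lt (max_lt (hd a b hab) ((hP a).2 hnt))
          · rw [norm_mul]
            exact (mul_le_mul_of_nonneg_left (hQ1 _ hab).le (norm_nonneg _)).trans_lt hlt
        · have hq : ‖ψ b * Q.eval (ι a)‖ < ε := by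
            rw [norm_mul]
            exact (mul_le_mul_of_nonneg_left (hQ2 _ (hι a) (not_le.1 hab)).le
              (norm_nonneg _)).trans_lt hlt
          constructor
          · rintro ⟨y, hy, h⟩
            rcases Finset.mem_insert.1 hy with rfl | hy
            · exact absurd h hab
            · have e1 : ψ a - (P.eval (ι a) + ψ b * Q.eval (ι a))
                  = (ψ a - P.eval (ι a)) - ψ b * Q.eval (ι a) := by ring
              rw [e1]
              exact (norm_sub_le_max' _ _).trans_lt (max_lt ((hP a).1 ⟨y, hy, h⟩) hq)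
          · intro h
            have h' : ¬ ∃ y ∈ t, ‖ι a - y‖ ≤ δ := by
              rintro ⟨y, hy, hh⟩
              exact h ⟨y, Finset.mem_insert_of_mem hy, hh⟩
            exact (IsUltrametricDist.norm_add_le_max _ _).trans_lt (max_lt ((hP a).2 h') hq)
  obtain ⟨P, hP⟩ := key hTf.toFinset (by simpa using hTs)
  refine ⟨P, fun a => (hP a).1 ?_⟩
  have := hT ⟨a, rfl⟩
  simp only [Set.mem_iUnion, Set.mem_ofPred_eq] at this
  obtain ⟨y, hy, h⟩ := this
  exact ⟨y, by simpa using hy, by rw [← dist_eq_norm]; exact le_of_lt h⟩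

/-- The classical form. -/
theorem sw_continuousOn {K : Set E} (hK : IsCompact K) (ψ : E → E) (hψ : ContinuousOn ψ K)
    {ε : ℝ} (hε : 0 < ε) : ∃ P : E[X], ∀ y ∈ K, ‖ψ y - P.eval y‖ < ε := by
  have hu : UniformContinuousOn ψ K := hK.uniformContinuousOn_of_continuous hψ
  rw [Metric.uniformContinuousOn_iff] at hu
  obtain ⟨P, hP⟩ := sw hK (fun a : K => (a : E)) (fun a => a.2) (fun a => ψ a) (by
    intro η hη
    obtain ⟨δ, hδ, h⟩ := hu η hη
    refine ⟨δ / 2, by positivity, fun a b hab => ?_⟩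
    rw [← dist_eq_norm]
    refine h a a.2 b b.2 ?_
    rw [dist_eq_norm]
    linarith) hε
  exact ⟨P, fun y hy => hP ⟨y, hy⟩⟩

end Vale.Agent.P022.H587
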