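import Vale.Agent.P022.H472.Lit
import Vale.Agent.P022.H587.SW

/-!
# [SW] `SWStmt` in the literal of H472/Lit.lean
-/

open scoped NumberField
open Polynomial

namespace Vale.Agent.P022.H587

/-- the image of the integers of a number field in a `2`-adic field is relatively compact -/
theorem exists_compact (K : Type) [Field K] [NumberField K] (E : Type) [NontriviallyNormedField E]
    [NormedAlgebra ℚ_[2] E] (ι : K →+* E) :
    ∃ C : Set E, IsCompact C ∧ ∀ α : 𝓞 K, ι α ∈ C := by
  classical
  let bs := NumberField.RingOfIntegers.basis K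
  let F : (Module.Free.ChooseBasisIndex ℤ (𝓞 K) → ℤ_[2]) → E :=
    fun x => ∑ i, algebraMap ℚ_[2] E (x i) * ι (bs i : 𝓞 K)
  have hF : Continuous F := by
    refine continuous_finsetSum _ fun i _ => ?_
    refine Continuous.mul ?_ continuous_const
    exact (continuous_algebraMap ℚ_[2] E).comp (continuous_subtype_val.comp (continuous_apply i))
  refine ⟨Set.range F, isCompact_range hF, fun α => ⟨fun i => ((bs.repr α i : ℤ) : ℤ_[2]), ?_⟩⟩
  have h1 : α = ∑ i, bs.repr α i • bs i := (bs.sum_repr α).symm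
  have h2 : ((α : 𝓞 K) : K) = ∑ i, ((bs.repr α i : ℤ) : K) * ((bs i : 𝓞 K) : K) := by
    conv_lhs => rw [h1]
    simp
  rw [h2, map_sum]
  simp only [F]
  refine Finset.sum_congr rfl fun i _ => ?_
  simp

theorem SW : SWStmt := by
  intro K _ _ _ D _ _ E _ _ _ ι M ε hε
  obtain ⟨C, hC, hα⟩ := exists_compact K E ι
  obtain ⟨P, h1, h2⟩ := ball_zero hC (r := (2 : ℝ)⁻¹ ^ M) (by positivity) hε
  refine ⟨P, fun α => ?_⟩
  split_ifs with h
  · rw [norm_sub_rev]; exact h1 _ h
  · rw [sub_zero]; exact h2 _ (hα α) (not_le.1 h)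

end Vale.Agent.P022.H587
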