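import Vale.Agent.P022.H472.Lit2
import Vale.Agent.P022.H587.SWS

/-!
# [APP1] approximation of `ψ((α))` by polynomials in `ι α` on the classes mod `m`
-/

open scoped NumberField
open Polynomial

namespace Vale.Agent.P022.H587

section

variable {K : Type} [Field K] [NumberField K] {E : Type} [NontriviallyNormedField E]
  [NormedAlgebra ℚ_[2] E] [IsUltrametricDist E] (ι : K →+* E)

omit [IsUltrametricDist E] in
theorem norm_int_le (α : 𝓞 K) : ‖ι α‖ ≤ 1 := by
  obtain ⟨C, hC, hα⟩ := exists_compact K E ι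
  by_contra h
  push Not at h
  obtain ⟨B, hB⟩ := hC.isBounded.exists_norm_le
  obtain ⟨n, hn⟩ := pow_unbounded_of_one_lt B h
  have := hB _ (hα (α ^ n))
  simp only [map_pow, norm_pow] at this
  exact absurd this (not_le.2 hn)

omit [IsUltrametricDist E] in
theorem norm_two_pow' (M : ℕ) : ‖((2 : E) ^ M)‖ = (2 : ℝ)⁻¹ ^ M := by
  have h : (2 : E) = algebraMap ℚ_[2] E 2 := (map_ofNat _ 2).symm
  rw [norm_pow, h, norm_algebraMap']
  congr 1
  have := Padic.norm_p (p := 2)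
  simpa using this

/-- uniform continuity of `ψ((α))` on the elements prime to `2m`, along a class mod `m` -/
theorem cont_unif (m : ℕ) (ψ : Ideal (𝓞 K) →* E) (hψ : Cont ι m ψ)
    (hn : ∀ 𝔞 : Ideal (𝓞 K), IsCoprime 𝔞 (Ideal.span {((2 * m : ℕ) : 𝓞 K)}) → ‖ψ 𝔞‖ = 1)
    {ε : ℝ} (hε : 0 < ε) : ∃ δ > 0, ∀ α β : 𝓞 K, IsCoprime α ((2 * m : ℕ) : 𝓞 K) →
      IsCoprime β ((2 * m : ℕ) : 𝓞 K) → (m : 𝓞 K) ∣ α - β → ‖ι α - ι β‖ ≤ δ →
      ‖ψ (Ideal.span {α}) - ψ (Ideal.span {β})‖ < ε := by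
  obtain ⟨δ, hδ, H⟩ := hψ ε hε
  obtain ⟨M, hM⟩ := exists_pow_lt_of_lt_one hδ (show ((2 : ℝ)⁻¹) < 1 by norm_num)
  refine ⟨δ / 2, by positivity, fun α β hα hβ hab hd => ?_⟩
  -- an inverse of `α` modulo `2^(M+1) m`
  have hc : IsCoprime α ((2 : 𝓞 K) ^ (M + 1) * m) := by
    have h1 : IsCoprime α ((2 : 𝓞 K) * m) := by simpa using hα
    exact (h1.of_mul_right_left.pow_right).mul_right h1.of_mul_right_right
  obtain ⟨γ, t, ht⟩ := hc
  have hγ : IsCoprime γ ((2 * m : ℕ) : 𝓞 K) := by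
    refine ⟨α, t * 2 ^ M, ?_⟩
    push_cast
    linear_combination ht
  have h1 : (m : 𝓞 K) ∣ α * γ - 1 := ⟨-(t * 2 ^ (M + 1)), by linear_combination ht⟩
  have h2 : (m : 𝓞 K) ∣ β * γ - 1 := by
    have : β * γ - 1 = (α * γ - 1) - (α - β) * γ := by ring
    rw [this]; exact dvd_sub h1 (hab.mul_right _)
  have h3 : ‖ι (α * γ : 𝓞 K) - 1‖ < δ := by
    have e1 : (α * γ : 𝓞 K) = 1 - 2 ^ (M + 1) * (t * m) := by linear_combination ht
    have e2 : ι (α * γ : 𝓞 K) - 1 = -((2 : E) ^ (M + 1) * ι ((t * m : 𝓞 K) : K)) := by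
      rw [e1]
      push_cast
      simp only [map_sub, map_mul, map_pow, map_one, map_ofNat]
      ring
    rw [e2, norm_neg, norm_mul, norm_two_pow']
    refine lt_of_le_of_lt (mul_le_of_le_one_right (by positivity) (norm_int_le ι _)) ?_
    refine lt_of_le_of_lt ?_ hM
    exact pow_le_pow_of_le_one (by norm_num) (by norm_num) (by omega)
  have h4 : ‖ι (β * γ : 𝓞 K) - 1‖ < δ := by
    have e2 : ι (β * γ : 𝓞 K) - 1 = (ι (α * γ : 𝓞 K) - 1) - (ι α - ι β) * ι γ := by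
      push_cast
      simp only [map_mul]
      ring
    rw [e2]
    refine (norm_sub_le_max' _ _).trans_lt (max_lt h3 ?_)
    rw [norm_mul]
    refine lt_of_le_of_lt (mul_le_of_le_one_right (norm_nonneg _) (norm_int_le ι _)) ?_
    linarith
  have h5 := H _ h1 h3
  have h6 := H _ h2 h4
  have h7 : ‖ψ (Ideal.span {α}) - ψ (Ideal.span {β})‖ =
      ‖(ψ (Ideal.span {α * γ}) - 1) - (ψ (Ideal.span {β * γ}) - 1)‖ := by
    have h8 : ‖ψ (Ideal.span {γ})‖ = 1 := hn _ (by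
      rw [Ideal.isCoprime_span_singleton_iff]; exact hγ)
    rw [← Ideal.span_singleton_mul_span_singleton, ← Ideal.span_singleton_mul_span_singleton,
      map_mul, map_mul, sub_sub_sub_cancel_right, ← sub_mul, norm_mul, h8, mul_one]
  rw [h7]
  exact (norm_sub_le_max' _ _).trans_lt (max_lt h5 h6)

end

theorem app1 : APP1Stmt := by
  classical
  intro K _ _ E _ _ _ _ ι m hm ψ hψ hn ε hε
  have hm0 : m ≠ 0 := hm.pos.ne'
  let I : Ideal (𝓞 K) := Ideal.span {(m : 𝓞 K)}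
  have : Finite (𝓞 K ⧸ I) := by
    refine Ideal.finiteQuotientOfFreeOfNeBot _ ?_
    rw [Ne, Ideal.span_singleton_eq_bot]
    exact_mod_cast hm0
  obtain ⟨n, ⟨e⟩⟩ := Finite.exists_equiv_fin (𝓞 K ⧸ I)
  obtain ⟨C, hC, hα⟩ := exists_compact K E ι
  have key : ∀ c : 𝓞 K ⧸ I, ∃ P : E[X], ∀ α : 𝓞 K, IsCoprime α ((2 * m : ℕ) : 𝓞 K) →
      Ideal.Quotient.mk I α = c → ‖ψ (Ideal.span {α}) - P.eval (ι α)‖ < ε := by
    intro c
    obtain ⟨P, hP⟩ := sw hC
      (fun a : {α : 𝓞 K // IsCoprime α ((2 * m : ℕ) : 𝓞 K) ∧ Ideal.Quotient.mk I α = c} =>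
        ι (a.1 : K)) (fun a => hα _) (fun a => ψ (Ideal.span {a.1})) (by
        intro η hη
        obtain ⟨δ, hδ, H⟩ := cont_unif ι m ψ hψ hn hη
        refine ⟨δ, hδ, fun a b hab => H _ _ a.2.1 b.2.1 ?_ hab⟩
        have := (Ideal.Quotient.eq (I := I)).1 (a.2.2.trans b.2.2.symm)
        exact Ideal.mem_span_singleton.1 this) hε
    exact ⟨P, fun α h1 h2 => hP ⟨α, h1, h2⟩⟩
  choose P hP using key
  refine ⟨n, fun i α => if Ideal.Quotient.mk I α = e.symm i then 1 else 0,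
    fun i => P (e.symm i), ?_, ?_⟩
  · intro i α β
    have : Ideal.Quotient.mk I (α + m * β) = Ideal.Quotient.mk I α := by
      rw [Ideal.Quotient.eq, add_sub_cancel_left]
      exact Ideal.mem_span_singleton.2 (dvd_mul_right _ _)
    simp only [this]
  · intro α hα
    have h1 : ∑ i : Fin n, (((if Ideal.Quotient.mk I α = e.symm i then (1 : ℤ) else 0 : ℤ)) : E) *
        (P (e.symm i)).eval (ι α) = (P (Ideal.Quotient.mk I α)).eval (ι α) := by
      rw [Finset.sum_eq_single (e (Ideal.Quotient.mk I α))]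
      · simp
      · intro i _ hi
        rw [if_neg]
        · simp
        · intro h
          apply hi
          rw [h]; simp
      · intro h; exact absurd (Finset.mem_univ _) h
    rw [h1]
    exact hP _ α hα rfl

end Vale.Agent.P022.H587
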