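import Vale.Agent.P022.H567.Real

/-!
P022, reciprocity: [RQ] and [RP], the real places.
-/

open NumberField IsDedekindDomain TensorProduct Finset

noncomputable section

namespace Vale.Agent.P022.H587.CF

open Vale.Agent.P022.C

variable {K L : Type} [Field K] [NumberField K] [Field L] [NumberField L] [Algebra K L]

theorem tw_tmul (R : Type) [Field R] [Algebra K R] (σ : L ≃ₐ[K] L) (r : R) (x : L) :
    tw R σ (r ⊗ₜ[K] x) = r ⊗ₜ[K] σ x := by
  simp [tw]

theorem tw_algebraMap (R : Type) [Field R] [Algebra K R] (σ : L ≃ₐ[K] L) (r : R) :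
    tw R σ (algebraMap R (R ⊗[K] L) r) = algebraMap R (R ⊗[K] L) r :=
  (tw R σ).commutes r

theorem nm_of_glob (R : Type) [Field R] [Algebra K R] (σ : L ≃ₐ[K] L) (n : ℕ) (a : K)
    (h : ∃ y : L, ∏ i ∈ range n, (σ ^ i) y = algebraMap K L a) : Nm σ n R a := by
  obtain ⟨y, hy⟩ := h
  refine ⟨1 ⊗ₜ[K] y, ?_⟩
  simp only [tw_tmul]
  have h1 : ∀ x : L, (1 : R) ⊗ₜ[K] x = Algebra.TensorProduct.includeRight (R := K) (A := R) x :=
    fun x => rfl
  simp only [h1]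
  rw [← map_prod, hy, AlgHom.commutes]

theorem nm_of_pow (R : Type) [Field R] [Algebra K R] (σ : L ≃ₐ[K] L) (n : ℕ) (a : K) (t : R)
    (h : t ^ n = algebraMap K R a) : Nm σ n R a := by
  refine ⟨algebraMap R (R ⊗[K] L) t, ?_⟩
  simp only [tw_algebraMap, prod_const, card_range]
  rw [← map_pow, h, ← IsScalarTower.algebraMap_apply K R (R ⊗[K] L)]

/-- an embedding of `L` over a real embedding of `K` -/
theorem exists_ext {n : ℕ} {σ : L ≃ₐ[K] L} (h : Cyc K n σ) (φ : K →+* ℝ) :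
    ∃ ρ : L →+* ℂ, ∀ x, ρ (algebraMap K L x) = (φ x : ℂ) := by
  have hfin : Module.Finite K L :=
    Module.finite_of_finrank_pos (by rw [h.rank]; exact h.pos)
  letI : Algebra K ℂ := (Complex.ofRealHom.comp φ).toAlgebra
  let g : L →ₐ[K] ℂ := IsAlgClosed.lift
  exact ⟨g, fun x => g.commutes x⟩

theorem dvd_two {n : ℕ} {σ : L ≃ₐ[K] L} (h : Cyc K n σ) (φ : K →+* ℝ) (c : ℕ)
    (hc : Cj σ φ c) : n ∣ 2 * c := by
  obtain ⟨ρ, hρ⟩ := exists_ext h φ
  have h1 := hc ρ hρ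
  rw [← h.ord]
  apply orderOf_dvd_of_pow_eq_one
  ext x
  apply ρ.injective
  have h2 : (σ ^ (2 * c)) x = (σ ^ c) ((σ ^ c) x) := by
    rw [two_mul, pow_add]; rfl
  rw [h2, ← h1, ← h1, Complex.conj_conj]
  rfl

theorem RQ : RQStmt := by
  intro K L _ _ _ _ _ n σ h φ
  refine ⟨fun a ha => ?_, dvd_two h φ, fun a ha => ?_⟩
  · letI := φ.toAlgebra
    refine nm_of_pow ℝ σ n a ((φ a) ^ ((n : ℝ)⁻¹)) ?_
    rw [← Real.rpow_natCast, ← Real.rpow_mul ha.le, inv_mul_cancel₀ (by exact_mod_cast h.pos.ne'),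
      Real.rpow_one]
    rfl
  · letI := φ.toAlgebra
    exact nm_of_glob ℝ σ n a ha

theorem RP : RPStmt := by
  intro K L _ _ _ _ _ n σ h φ c hc hσc a ha hn
  obtain ⟨h0, hh⟩ : ∃ m, n = 2 * m ∧ σ ^ c = σ ^ m ∧ 0 < m := by
    obtain ⟨k, hk⟩ := dvd_two h φ c hc
    have hnc : ¬ n ∣ c := by
      intro hd
      apply hσc
      rw [← h.ord] at hd
      exact orderOf_dvd_iff_pow_eq_one.1 hd
    have hk2 : ¬ 2 ∣ k := by
      rintro ⟨k', rfl⟩
      exact hnc ⟨k', by linarith [hk, mul_left_comm n 2 k']⟩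
    have hkodd : Odd k := Nat.not_even_iff_odd.1 (fun he => hk2 he.two_dvd)
    have hn2 : 2 ∣ n := by
      have : 2 ∣ n * k := ⟨c, hk.symm⟩
      exact (Nat.Prime.dvd_mul Nat.prime_two).1 this |>.resolve_right hk2
    obtain ⟨m, rfl⟩ := hn2
    have hm : c = m * k := by
      have : 2 * c = 2 * (m * k) := by rw [hk]; ring
      omega
    obtain ⟨k', rfl⟩ := hkodd
    refine ⟨m, rfl, ?_, ?_⟩
    · rw [hm, show m * (2 * k' + 1) = (2 * m) * k' + m by ring, pow_add, pow_mul]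
      have : σ ^ (2 * m) = 1 := by rw [← h.ord]; exact pow_orderOf_eq_one σ
      rw [this, one_pow, one_mul]
    · have := h.pos
      omega
  obtain ⟨rfl, hcm, hm0⟩ := hh
  letI := φ.toAlgebra
  obtain ⟨ρ, hρ⟩ := exists_ext h φ
  obtain ⟨y, hy⟩ : Nm σ (2 * h0) ℝ a := hn
  letI : Algebra K ℂ := (Complex.ofRealHom.comp φ).toAlgebra
  haveI : IsScalarTower K ℝ ℂ := IsScalarTower.of_algebraMap_eq fun x => rfl
  let g : L →ₐ[K] ℂ := { ρ with commutes' := fun x => hρ x }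
  let G : ℝ ⊗[K] L →ₐ[ℝ] ℂ := Algebra.TensorProduct.lift (Algebra.ofId ℝ ℂ) g
    (fun _ _ => Commute.all _ _)
  have hG : ∀ (r : ℝ) (x : L), G (r ⊗ₜ[K] x) = (r : ℂ) * ρ x := by
    intro r x
    simp [G, g, Algebra.ofId_apply]
  have hconj : ∀ z : ℝ ⊗[K] L, starRingEnd ℂ (G z) = G (tw ℝ (σ ^ c) z) := by
    intro z
    induction z using TensorProduct.induction_on with
    | zero => simp
    | tmul r x => rw [tw_tmul, hG, hG, map_mul, Complex.conj_ofReal, hc ρ hρ x]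
    | add z w hz hw => rw [map_add, map_add, map_add, map_add, hz, hw]
  have h1 := congrArg G hy
  rw [map_prod, two_mul, prod_range_add, ← prod_mul_distrib] at h1
  have h2 : ∀ i ∈ range h0, G (tw ℝ (σ ^ i) y) * G (tw ℝ (σ ^ (h0 + i)) y) =
      ((Complex.normSq (G (tw ℝ (σ ^ i) y)) : ℝ) : ℂ) := by
    intro i _
    rw [← Complex.mul_conj, hconj]
    congr 2
    rw [hcm]
    have : ∀ z : ℝ ⊗[K] L, tw ℝ (σ ^ (h0 + i)) z = tw ℝ (σ ^ h0) (tw ℝ (σ ^ i) z) := by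
      intro z
      induction z using TensorProduct.induction_on with
      | zero => simp
      | tmul r x => rw [tw_tmul, tw_tmul, tw_tmul, pow_add]; rfl
      | add z w hz hw => rw [map_add, map_add, map_add, hz, hw]
    exact this y
  rw [prod_congr rfl h2] at h1
  have h3 : G (algebraMap K (ℝ ⊗[K] L) a) = ((φ a : ℝ) : ℂ) := by
    rw [IsScalarTower.algebraMap_apply K ℝ (ℝ ⊗[K] L), AlgHom.commutes]
    rfl
  rw [h3, ← Complex.ofReal_prod] at h1
  have h4 : ∏ i ∈ range h0, Complex.normSq (G (tw ℝ (σ ^ i) y)) = φ a := by exact_mod_cast h1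
  have h5 : φ a ≠ 0 := by
    rw [Ne, map_eq_zero]; exact ha
  have h6 : 0 ≤ φ a := by
    rw [← h4]
    exact prod_nonneg fun i _ => Complex.normSq_nonneg _
  exact lt_of_le_of_ne h6 (Ne.symm h5)

end Vale.Agent.P022.H587.CF
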